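import Mathlib

/-!
# P158: deterministic comparison in one block

A path crossing a narrow slanted band loses against a cheap detour around it.
-/

namespace Vale.Agent.P158

abbrev V := ℤ × ℤ

/-- Nearest neighbours in `ℤ²`. -/
def Adj (a b : V) : Prop := |a.1 - b.1| + |a.2 - b.2| = 1

/-- `v 0, …, v L` is a nearest-neighbour path. -/
def IsPath (v : ℕ → V) (L : ℕ) : Prop := ∀ k < L, Adj (v k) (v (k + 1))

/-- The passage time of the path `v 0, …, v L`. -/
def cost (t : Sym2 V → ℝ) (v : ℕ → V) (L : ℕ) : ℝ :=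
  ∑ k ∈ Finset.range L, t s(v k, v (k + 1))

/-- `v 0, …, v L` minimises the passage time between its ends. -/
def IsGeo (t : Sym2 V → ℝ) (v : ℕ → V) (L : ℕ) : Prop :=
  IsPath v L ∧ ∀ (w : ℕ → V) (M : ℕ), IsPath w M → w 0 = v 0 → w M = v L →
    cost t v L ≤ cost t w M

lemma adj_comm {a b : V} (h : Adj a b) : Adj b a := by
  unfold Adj at *
  rwa [abs_sub_comm b.1, abs_sub_comm b.2]

/-- Concatenation. -/
def cat (v : ℕ → V) (L : ℕ) (w : ℕ → V) : ℕ → V := fun k => if k ≤ L then v k else w (k - L)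

lemma cat_left (v w : ℕ → V) (L k : ℕ) (hk : k ≤ L) : cat v L w k = v k := if_pos hk

lemma cat_right (v w : ℕ → V) (L k : ℕ) (h : w 0 = v L) : cat v L w (L + k) = w k := by
  unfold cat
  split_ifs with hk
  · obtain rfl : k = 0 := by omega
    simp [h]
  · simp

lemma cat_path {v w : ℕ → V} {L M : ℕ} (hv : IsPath v L) (hw : IsPath w M) (h : w 0 = v L) :
    IsPath (cat v L w) (L + M) := by
  intro k hk
  by_cases hk' : k < L
  · rw [cat_left v w L k hk'.le, cat_left v w L (k + 1) hk']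
    exact hv k hk'
  · obtain ⟨i, rfl⟩ : ∃ i, k = L + i := ⟨k - L, by omega⟩
    rw [cat_right v w L i h, show L + i + 1 = L + (i + 1) by omega, cat_right v w L (i + 1) h]
    exact hw i (by omega)

lemma cat_cost (t : Sym2 V → ℝ) {v w : ℕ → V} {L M : ℕ} (h : w 0 = v L) :
    cost t (cat v L w) (L + M) = cost t v L + cost t w M := by
  unfold cost
  rw [Finset.sum_range_add]
  refine congrArg₂ (· + ·) (Finset.sum_congr rfl fun k hk => ?_) (Finset.sum_congr rfl fun k _ => ?_)
  · rw [cat_left v w L k (Finset.mem_range.1 hk).le, cat_left v w L (k + 1) (Finset.mem_range.1 hk)]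
  · rw [cat_right v w L k h, show L + k + 1 = L + (k + 1) by omega, cat_right v w L (k + 1) h]

lemma IsPath.shift {v : ℕ → V} {L i j : ℕ} (h : IsPath v L) (hij : i ≤ j) (hj : j ≤ L) :
    IsPath (fun k => v (i + k)) (j - i) := fun k hk => by
  simpa [add_assoc] using h (i + k) (by omega)

lemma IsGeo.sub {t : Sym2 V → ℝ} {v : ℕ → V} {L i j : ℕ} (h : IsGeo t v L) (hij : i ≤ j)
    (hj : j ≤ L) : IsGeo t (fun k => v (i + k)) (j - i) := by
  refine ⟨h.1.shift hij hj, fun w M hw hw0 hwM => ?_⟩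
  simp only [add_zero, show i + (j - i) = j by omega] at hw0 hwM
  have hpre : IsPath v i := fun k hk => h.1 k (by omega)
  have hsuf := h.1.shift hj le_rfl
  have hsuf0 : (fun k => v (j + k)) 0 = cat v i w (i + M) := by
    rw [cat_right v w i M hw0, hwM]; simp
  have key := h.2 (cat (cat v i w) (i + M) fun k => v (j + k)) (i + M + (L - j))
    (cat_path (cat_path hpre hw hw0) hsuf hsuf0)
    (by rw [cat_left _ _ _ _ (Nat.zero_le _), cat_left _ _ _ _ (Nat.zero_le _)])
    (by rw [cat_right _ _ _ _ hsuf0, show j + (L - j) = L by omega])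
  rw [cat_cost t hsuf0, cat_cost t hw0] at key
  have hsplit : cost t v L =
      cost t v i + cost t (fun k => v (i + k)) (j - i) + cost t (fun k => v (j + k)) (L - j) := by
    unfold cost
    conv_lhs => rw [show L = i + (j - i) + (L - j) by omega, Finset.sum_range_add,
      Finset.sum_range_add]
    refine congrArg₂ (· + ·) rfl (Finset.sum_congr rfl fun k _ => ?_)
    rw [show i + (j - i) = j by omega, add_assoc]
  linarith

/-- The reversed path. -/
def rev (v : ℕ → V) (L : ℕ) : ℕ → V := fun k => v (L - k)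

lemma rev_path {v : ℕ → V} {L : ℕ} (h : IsPath v L) : IsPath (rev v L) L := by
  intro k hk
  unfold rev
  have := adj_comm (h (L - (k + 1)) (by omega))
  rwa [show L - (k + 1) + 1 = L - k by omega] at this

lemma rev_cost (t : Sym2 V → ℝ) (v : ℕ → V) (L : ℕ) : cost t (rev v L) L = cost t v L := by
  unfold cost
  rw [← Finset.sum_range_reflect (fun k => t s(v k, v (k + 1))) L]
  refine Finset.sum_congr rfl fun k hk => ?_
  rw [Finset.mem_range] at hk
  unfold rev
  rw [show L - 1 - k + 1 = L - k by omega, show L - (k + 1) = L - 1 - k by omega, Sym2.eq_swap]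

lemma IsGeo.reverse {t : Sym2 V → ℝ} {v : ℕ → V} {L : ℕ} (h : IsGeo t v L) :
    IsGeo t (rev v L) L := by
  refine ⟨rev_path h.1, fun w M hw h0 hM => ?_⟩
  have := h.2 (rev w M) M (rev_path hw) (by simpa [rev] using hM) (by simpa [rev] using h0)
  rw [rev_cost] at this
  rwa [rev_cost]

/-! ## Bands, crossing edges and detour edges -/

/-- The centre of the band over the offset `i`. -/
def ctr (Y S : ℤ) (m i : ℕ) : ℤ := Y + S * i / m

lemma ctr_zero (Y S : ℤ) (m : ℕ) : ctr Y S m 0 = Y := by simp [ctr]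

lemma ctr_top (Y S : ℤ) {m : ℕ} (hm : m ≠ 0) : ctr Y S m m = Y + S := by
  unfold ctr
  rw [Int.mul_ediv_cancel _ (by exact_mod_cast hm)]

lemma ctr_step (Y S : ℤ) {m : ℕ} (hm : 0 < m) (hS : |S| ≤ m) (i : ℕ) :
    |ctr Y S m (i + 1) - ctr Y S m i| ≤ 1 ∧
      (0 ≤ S → ctr Y S m i ≤ ctr Y S m (i + 1)) ∧ (S ≤ 0 → ctr Y S m (i + 1) ≤ ctr Y S m i) := by
  have hm' : (0 : ℤ) < m := by exact_mod_cast hm
  unfold ctr
  rw [abs_le] at hS ⊢
  have h1 := Int.ediv_mul_le (S * i) hm'.ne'
  have h2 := Int.lt_ediv_add_one_mul_self (S * i) hm'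
  have h3 := Int.ediv_mul_le (S * ((i + 1 : ℕ) : ℤ)) hm'.ne'
  have h4 := Int.lt_ediv_add_one_mul_self (S * ((i + 1 : ℕ) : ℤ)) hm'
  push_cast at h3 h4 ⊢
  refine ⟨⟨by nlinarith, by nlinarith⟩, fun h => ?_, fun h => ?_⟩ <;> nlinarith

lemma ctr_variation (Y S : ℤ) {m : ℕ} (hm : 0 < m) (hS : |S| ≤ m) (k : ℕ) :
    ∑ i ∈ Finset.range k, |ctr Y S m (i + 1) - ctr Y S m i| = |ctr Y S m k - Y| := by
  rcases le_total 0 S with h | h
  · rw [Finset.sum_congr rfl fun i _ => abs_of_nonneg (sub_nonneg.2 ((ctr_step Y S hm hS i).2.1 h)),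
      Finset.sum_range_sub (ctr Y S m) k, ctr_zero, abs_of_nonneg]
    induction k with
    | zero => simp [ctr_zero]
    | succ k ih => linarith [(ctr_step Y S hm hS k).2.1 h]
  · rw [Finset.sum_congr rfl fun i _ => abs_of_nonpos (sub_nonpos.2 ((ctr_step Y S hm hS i).2.2 h)),
      Finset.sum_neg_distrib, Finset.sum_range_sub (ctr Y S m) k, ctr_zero, abs_of_nonpos]
    induction k with
    | zero => simp [ctr_zero]
    | succ k ih => linarith [(ctr_step Y S hm hS k).2.2 h]

/-- The band vertices of the block `X ≤ x ≤ X + m`. -/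
def band (X Y S : ℤ) (m R : ℕ) : Finset V :=
  (Finset.range (m + 1) ×ˢ Finset.range (2 * R + 1)).image fun p =>
    ((X + p.1 : ℤ), ctr Y S m p.1 - R + p.2)

lemma mem_band {X Y S : ℤ} {m R : ℕ} {z : V} : z ∈ band X Y S m R ↔
    ∃ i ≤ m, z.1 = X + i ∧ |z.2 - ctr Y S m i| ≤ R := by
  simp only [band, Finset.mem_image, Finset.mem_product, Finset.mem_range, Prod.exists]
  constructor
  · rintro ⟨i, l, ⟨hi, hl⟩, rfl⟩
    exact ⟨i, by omega, rfl, by rw [abs_le]; constructor <;> omega⟩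
  · rintro ⟨i, hi, h1, h2⟩
    rw [abs_le] at h2
    exact ⟨i, (z.2 - ctr Y S m i + R).toNat, ⟨by omega, by omega⟩, Prod.ext h1.symm (by simp; omega)⟩

/-- Edges inside the band, without the two boundary columns. -/
def inner (X Y S : ℤ) (m R : ℕ) : Finset (Sym2 V) :=
  ((band X Y S m R ×ˢ band X Y S m R).filter fun p =>
    ¬ (p.1.1 = X ∧ p.2.1 = X) ∧ ¬ (p.1.1 = X + m ∧ p.2.1 = X + m)).image fun p => s(p.1, p.2)

lemma mem_inner {X Y S : ℤ} {m R : ℕ} {a b : V} : s(a, b) ∈ inner X Y S m R ↔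
    a ∈ band X Y S m R ∧ b ∈ band X Y S m R ∧
      ¬ (a.1 = X ∧ b.1 = X) ∧ ¬ (a.1 = X + m ∧ b.1 = X + m) := by
  simp only [inner, Finset.mem_image, Finset.mem_filter, Finset.mem_product]
  constructor
  · rintro ⟨⟨p, q⟩, ⟨⟨hp, hq⟩, h1, h2⟩, he⟩
    rcases Sym2.eq_iff.1 he with ⟨rfl, rfl⟩ | ⟨rfl, rfl⟩
    · exact ⟨hp, hq, h1, h2⟩
    · exact ⟨hq, hp, fun h => h1 ⟨h.2, h.1⟩, fun h => h2 ⟨h.2, h.1⟩⟩
  · rintro ⟨ha, hb, h1, h2⟩
    exact ⟨(a, b), ⟨⟨ha, hb⟩, h1, h2⟩, rfl⟩

/-- The height of the detour over the offset `i`. -/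
def top (Y S : ℤ) (m R i : ℕ) : ℤ := ctr Y S m i + R + 2

/-- The detour edges: the two boundary columns and a staircase above the band. -/
def outer (X Y S : ℤ) (m R : ℕ) : Finset (Sym2 V) :=
  (Finset.range (2 * R + 2)).image
      (fun l : ℕ => s(((X, Y - R + (l : ℤ)) : V), ((X, Y - R + (l : ℤ) + 1) : V))) ∪
    (Finset.range (2 * R + 2)).image
      (fun l : ℕ => s(((X + m, Y + S - R + (l : ℤ)) : V), ((X + m, Y + S - R + (l : ℤ) + 1) : V))) ∪
    (Finset.range m).image
      (fun i : ℕ => s(((X + i, top Y S m R i) : V), ((X + i + 1, top Y S m R i) : V))) ∪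
    (Finset.range m).image
      (fun i : ℕ => s(((X + i + 1, top Y S m R i) : V), ((X + i + 1, top Y S m R (i + 1)) : V)))

lemma outer_card (X Y S : ℤ) (m R : ℕ) : (outer X Y S m R).card ≤ 2 * m + 4 * R + 4 := by
  unfold outer
  refine (Finset.card_union_le _ _).trans ?_
  refine (Nat.add_le_add ((Finset.card_union_le _ _).trans
    (Nat.add_le_add_right (Finset.card_union_le _ _) _)) le_rfl).trans ?_
  refine (Nat.add_le_add (Nat.add_le_add (Nat.add_le_add Finset.card_image_le Finset.card_image_le)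
    Finset.card_image_le) Finset.card_image_le).trans ?_
  simp
  omega

lemma outer_disjoint (X Y S : ℤ) {m : ℕ} (hm : 0 < m) (hS : |S| ≤ m) (R : ℕ) :
    Disjoint (outer X Y S m R) (inner X Y S m R) := by
  rw [Finset.disjoint_left]
  intro e he hin
  have hout : ∀ i : ℕ, ∀ y : ℤ, (ctr Y S m i + R < y) → ((X + i, y) : V) ∉ band X Y S m R := by
    intro i y hy hb
    obtain ⟨j, _, h1, h2⟩ := mem_band.1 hb
    obtain rfl : i = j := by simp at h1; omega
    simp only [abs_le] at h2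
    omega
  simp only [outer, Finset.mem_union, Finset.mem_image, Finset.mem_range] at he
  rcases he with ((⟨l, _, rfl⟩ | ⟨l, _, rfl⟩) | ⟨i, _, rfl⟩) | ⟨i, _, rfl⟩
  · exact (mem_inner.1 hin).2.2.1 ⟨rfl, rfl⟩
  · exact (mem_inner.1 hin).2.2.2 ⟨rfl, rfl⟩
  · exact hout i (top Y S m R i) (by unfold top; omega) (mem_inner.1 hin).1
  · have hc := abs_le.1 (ctr_step Y S hm hS i).1
    have := (mem_inner.1 hin).1
    rw [show X + (i : ℤ) + 1 = X + ((i + 1 : ℕ) : ℤ) by push_cast; ring] at this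
    exact hout (i + 1) (top Y S m R i) (by unfold top; omega) this

/-- Some path from `a` to `b` of length at most `M` uses only edges of `F`. -/
def Reach (F : Finset (Sym2 V)) (a b : V) (M : ℕ) : Prop :=
  ∃ (w : ℕ → V) (n : ℕ), n ≤ M ∧ IsPath w n ∧ w 0 = a ∧ w n = b ∧
    ∀ k < n, s(w k, w (k + 1)) ∈ F

lemma Reach.refl (F : Finset (Sym2 V)) (a : V) (M : ℕ) : Reach F a a M :=
  ⟨fun _ => a, 0, Nat.zero_le _, fun k hk => absurd hk (Nat.not_lt_zero k), rfl, rfl,
    fun k hk => absurd hk (Nat.not_lt_zero k)⟩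

lemma Reach.step {F : Finset (Sym2 V)} {a b : V} (h : s(a, b) ∈ F) (hab : Adj a b) :
    Reach F a b 1 := by
  refine ⟨fun k => if k = 0 then a else b, 1, le_rfl, ?_, rfl, rfl, ?_⟩ <;>
    · intro k hk
      obtain rfl : k = 0 := by omega
      simpa

lemma Reach.trans {F : Finset (Sym2 V)} {a b c : V} {M N : ℕ} (h : Reach F a b M)
    (h' : Reach F b c N) : Reach F a c (M + N) := by
  obtain ⟨v, m, hm, hv, hv0, hvm, hvF⟩ := h
  obtain ⟨w, n, hn, hw, hw0, hwn, hwF⟩ := h'
  have h0 : w 0 = v m := by rw [hw0, hvm]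
  refine ⟨cat v m w, m + n, by omega, cat_path hv hw h0, ?_, ?_, ?_⟩
  · rw [cat_left _ _ _ _ (Nat.zero_le _), hv0]
  · rw [cat_right _ _ _ _ h0, hwn]
  · intro k hk
    by_cases hk' : k < m
    · rw [cat_left v w m k hk'.le, cat_left v w m (k + 1) hk']
      exact hvF k hk'
    · obtain ⟨i, rfl⟩ : ∃ i, k = m + i := ⟨k - m, by omega⟩
      rw [cat_right v w m i h0, show m + i + 1 = m + (i + 1) by omega, cat_right v w m (i + 1) h0]
      exact hwF i (by omega)

lemma Reach.symm {F : Finset (Sym2 V)} {a b : V} {M : ℕ} (h : Reach F a b M) : Reach F b a M := by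
  obtain ⟨v, n, hn, hv, hv0, hvn, hvF⟩ := h
  refine ⟨rev v n, n, hn, rev_path hv, by simpa [rev], by simpa [rev], fun k hk => ?_⟩
  have := hvF (n - (k + 1)) (by omega)
  unfold rev
  rwa [Sym2.eq_swap, show n - (k + 1) + 1 = n - k by omega] at this

lemma Reach.mono {F : Finset (Sym2 V)} {a b : V} {M N : ℕ} (h : Reach F a b M) (hMN : M ≤ N) :
    Reach F a b N := by
  obtain ⟨v, n, hn, rest⟩ := h
  exact ⟨v, n, hn.trans hMN, rest⟩

lemma reach_column {F : Finset (Sym2 V)} {x B : ℤ} {R : ℕ}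
    (hF : ∀ l : ℕ, l < 2 * R + 2 → s(((x, B - R + (l : ℤ)) : V), ((x, B - R + (l : ℤ) + 1) : V)) ∈ F) (y : ℤ)
    (hy : |y - B| ≤ R) : Reach F ((x, y) : V) ((x, B + R + 2) : V) (2 * R + 2) := by
  rw [abs_le] at hy
  have key : ∀ k : ℕ, y + k ≤ B + R + 2 → Reach F ((x, y) : V) ((x, y + k) : V) k := by
    intro k
    induction k with
    | zero => intro _; simpa using Reach.refl F ((x, y) : V) 0
    | succ k ih =>
      intro hk
      push_cast at hk
      refine (ih (by linarith)).trans (Reach.step ?_ (by simp [Adj]))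
      have := hF (y + k - B + R).toNat (by omega)
      rw [Int.toNat_of_nonneg (by omega)] at this
      rw [show B - (R : ℤ) + (y + k - B + R) = y + k by ring, add_assoc] at this
      push_cast
      exact this
  have h := key (B + R + 2 - y).toNat (by omega)
  rw [Int.toNat_of_nonneg (by omega), add_sub_cancel] at h
  exact h.mono (by omega)

lemma reach_staircase (X Y S : ℤ) {m : ℕ} (hm : 0 < m) (hS : |S| ≤ m) (R : ℕ) :
    Reach (outer X Y S m R) ((X, Y + R + 2) : V) ((X + m, Y + S + R + 2) : V)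
      (m + S.natAbs) := by
  have key : ∀ k ≤ m, Reach (outer X Y S m R) ((X, Y + R + 2) : V) ((X + k, top Y S m R k) : V)
      (k + ∑ i ∈ Finset.range k, (ctr Y S m (i + 1) - ctr Y S m i).natAbs) := by
    intro k
    induction k with
    | zero => intro _; simpa [top, ctr_zero] using Reach.refl _ _ 0
    | succ k ih =>
      intro hk
      rw [Finset.sum_range_succ]
      have hx : X + ((k + 1 : ℕ) : ℤ) = X + k + 1 := by push_cast; ring
      have h1 : Reach (outer X Y S m R) ((X, Y + R + 2) : V) ((X + k + 1, top Y S m R k) : V)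
          (k + ∑ i ∈ Finset.range k, (ctr Y S m (i + 1) - ctr Y S m i).natAbs + 1) := by
        refine (ih (by omega)).trans (Reach.step ?_ (by simp [Adj]))
        simp only [outer, Finset.mem_union, Finset.mem_image, Finset.mem_range]
        exact Or.inl (Or.inr ⟨k, by omega, rfl⟩)
      have hc := abs_le.1 (ctr_step Y S hm hS k).1
      rw [hx]
      rcases eq_or_ne (ctr Y S m (k + 1)) (ctr Y S m k) with h | h
      · have : top Y S m R (k + 1) = top Y S m R k := by simp [top, h]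
        rw [this, h]
        exact h1.mono (by simp)
      · refine (h1.trans (Reach.step (b := ((X + k + 1, top Y S m R (k + 1)) : V)) ?_ ?_)).mono
          (by omega)
        · simp only [outer, Finset.mem_union, Finset.mem_image, Finset.mem_range]
          exact Or.inr ⟨k, by omega, rfl⟩
        · simp only [Adj, top, sub_self, abs_zero, zero_add]
          rw [abs_eq (by norm_num : (0:ℤ) ≤ 1)]
          omega
  have h := key m le_rfl
  rw [top, ctr_top Y S hm.ne'] at h
  refine h.mono ?_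
  have hv := ctr_variation Y S hm hS m
  rw [ctr_top Y S hm.ne', add_sub_cancel_left] at hv
  have : ((∑ i ∈ Finset.range m, (ctr Y S m (i + 1) - ctr Y S m i).natAbs : ℕ) : ℤ) = |S| := by
    rw [← hv]; push_cast; rfl
  rw [← Int.natCast_natAbs] at this
  omega

/-! ## The comparison -/

/-- All detour edges are cheap. -/
def Low (X Y S : ℤ) (m R : ℕ) (s1 : ℝ) : Set (Sym2 V → ℝ) :=
  {t | ∀ e ∈ outer X Y S m R, t e < s1}

/-- Every self-avoiding crossing of the band is expensive. -/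
def High (X Y S : ℤ) (m R : ℕ) (s2 : ℝ) : Set (Sym2 V → ℝ) :=
  {t | ∀ (v : ℕ → V) (ℓ : ℕ), m ≤ ℓ → IsPath v ℓ → Set.InjOn v (Set.Iic ℓ) → (v 0).1 = X →
    (∀ k < ℓ, s(v k, v (k + 1)) ∈ inner X Y S m R) → ℓ * s2 < cost t v ℓ}

lemma path_dist {v : ℕ → V} {L : ℕ} (h : IsPath v L) :
    |(v L).1 - (v 0).1| + |(v L).2 - (v 0).2| ≤ L := by
  induction L with
  | zero => simp
  | succ L ih =>
    have h1 := ih fun k hk => h k (hk.trans (Nat.lt_succ_self L))
    have h2 : |(v L).1 - (v (L + 1)).1| + |(v L).2 - (v (L + 1)).2| = 1 := h L (Nat.lt_succ_self L)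
    have := abs_sub_le (v (L + 1)).1 (v L).1 (v 0).1
    have := abs_sub_le (v (L + 1)).2 (v L).2 (v 0).2
    rw [abs_sub_comm (v L).1, abs_sub_comm (v L).2] at h2
    push_cast
    linarith

/-- In a block with cheap detour and expensive crossings no geodesic crosses the band. -/
theorem block_contra {t : Sym2 V → ℝ} {v : ℕ → V} {L : ℕ} {X Y S : ℤ} {m R : ℕ} {s1 s2 : ℝ}
    (hgeo : IsGeo t v L) (hinj : Set.InjOn v (Set.Iic L)) (hm : 2 ≤ m) (hS : |S| ≤ m)
    (hs1 : 0 ≤ s1) (hcond : (6 * R + 4) * s1 ≤ m * (s2 - s1)) (hlow : t ∈ Low X Y S m R s1)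
    (hhigh : t ∈ High X Y S m R s2) (h0 : (v 0).1 ≤ X) (hL : X + m ≤ (v L).1)
    (hband : ∀ k ≤ L, X ≤ (v k).1 → (v k).1 ≤ X + m → v k ∈ band X Y S m R) : False := by
  classical
  have hex : ∃ k, k ≤ L ∧ X + m ≤ (v k).1 := ⟨L, le_rfl, hL⟩
  set j := Nat.find hex with hjdef
  obtain ⟨hjL, hjx⟩ := Nat.find_spec hex
  have hlt : ∀ k < j, (v k).1 < X + m := fun k hk => by
    have := Nat.find_min hex hk
    push Not at this
    exact this (by omega)
  have hstep : ∀ k < L, |(v k).1 - (v (k + 1)).1| ≤ 1 := fun k hk => by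
    have := hgeo.1 k hk
    unfold Adj at this
    have := abs_nonneg ((v k).2 - (v (k + 1)).2)
    omega
  have hj0 : j ≠ 0 := fun h => by rw [← hjdef] at hjx; rw [h] at hjx; omega
  have hjeq : (v j).1 = X + m := by
    rw [← hjdef] at hjx
    have h1 := hlt (j - 1) (by omega)
    have h2 := abs_le.1 (hstep (j - 1) (by omega))
    rw [show j - 1 + 1 = j by omega] at h2
    omega
  set P : ℕ → Prop := fun k => (v k).1 ≤ X with hP
  set i := Nat.findGreatest P j with hidef
  have hiX : (v i).1 ≤ X := Nat.findGreatest_spec (P := P) (Nat.zero_le j) h0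
  have hij : i ≤ j := Nat.findGreatest_le j
  have hgt : ∀ k, i < k → k ≤ j → X < (v k).1 := fun k hk hkj => by
    have := Nat.findGreatest_is_greatest (P := P) hk hkj
    simpa [hP] using this
  have hij' : i < j := lt_of_le_of_ne hij fun h => by rw [h] at hiX; omega
  have hieq : (v i).1 = X := by
    have h1 := hgt (i + 1) (by omega) (by omega)
    have h2 := abs_le.1 (hstep i (by omega))
    omega
  set u : ℕ → V := fun k => v (i + k) with hu
  set ℓ := j - i with hℓ
  have hpos : ∀ k ≤ ℓ, u k ∈ band X Y S m R ∧ (k = 0 ∨ X < (u k).1) ∧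
      (k = ℓ ∨ (u k).1 < X + m) := by
    intro k hk
    have hX : k = 0 ∨ X < (u k).1 := by
      rcases Nat.eq_zero_or_pos k with rfl | hk'
      · exact Or.inl rfl
      · exact Or.inr (hgt (i + k) (by omega) (by omega))
    have hM : k = ℓ ∨ (u k).1 < X + m := by
      rcases eq_or_lt_of_le hk with rfl | hk'
      · exact Or.inl rfl
      · exact Or.inr (hlt (i + k) (by omega))
    refine ⟨hband (i + k) (by omega) ?_ ?_, hX, hM⟩
    · rcases hX with rfl | h
      · simp [hieq]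
      · exact h.le
    · rcases hM with rfl | h
      · rw [show i + (j - i) = j by omega, hjeq]
      · exact h.le
  have hu0 : (u 0).1 = X := by simp [hu, hieq]
  have huℓ : (u ℓ).1 = X + m := by
    simp only [hu]
    rw [show i + ℓ = j by omega, hjeq]
  have hdist := path_dist (hgeo.1.shift hij hjL)
  simp only [add_zero] at hdist
  rw [show i + (j - i) = j by omega, hjeq, hieq] at hdist
  have hmℓ : m ≤ ℓ := by
    have := abs_nonneg ((v j).2 - (v i).2)
    have := le_abs_self (X + (m : ℤ) - X)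
    omega
  have hH := hhigh u ℓ hmℓ (hgeo.1.shift hij hjL) (fun a ha b hb hab => by
    simp only [Set.mem_Iic] at ha hb
    have := hinj (show i + a ∈ Set.Iic L by simp only [Set.mem_Iic]; omega)
      (show i + b ∈ Set.Iic L by simp only [Set.mem_Iic]; omega) hab
    omega) hu0 (fun k hk => by
    obtain ⟨a1, a2, a3⟩ := hpos k hk.le
    obtain ⟨b1, b2, b3⟩ := hpos (k + 1) hk
    refine mem_inner.2 ⟨a1, b1, ?_, ?_⟩
    · rintro ⟨_, h⟩
      rcases b2 with hh | hh <;> omega
    · rintro ⟨h, _⟩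
      rcases a3 with hh | hh <;> omega)
  obtain ⟨i0, _, hi0x, hi0⟩ := mem_band.1 (hpos 0 (Nat.zero_le _)).1
  obtain rfl : i0 = 0 := by rw [hu0] at hi0x; omega
  rw [ctr_zero] at hi0
  obtain ⟨i1, _, hi1x, hi1⟩ := mem_band.1 (hpos ℓ le_rfl).1
  obtain rfl : i1 = m := by rw [huℓ] at hi1x; omega
  rw [ctr_top Y S (by omega : i1 ≠ 0)] at hi1
  have hcolL : Reach (outer X Y S i1 R) (u 0) ((X, Y + R + 2) : V) (2 * R + 2) := by
    have := reach_column (F := outer X Y S i1 R) (x := X) (B := Y) (R := R) (fun l hl => by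
      simp only [outer, Finset.mem_union, Finset.mem_image, Finset.mem_range]
      exact Or.inl (Or.inl (Or.inl ⟨l, hl, rfl⟩))) (u 0).2 hi0
    rwa [← (Prod.ext hu0 rfl : u 0 = ((X, (u 0).2) : V))] at this
  have hcolR : Reach (outer X Y S i1 R) (u ℓ) ((X + i1, Y + S + R + 2) : V) (2 * R + 2) := by
    have := reach_column (F := outer X Y S i1 R) (x := X + i1) (B := Y + S) (R := R) (fun l hl => by
      simp only [outer, Finset.mem_union, Finset.mem_image, Finset.mem_range]
      exact Or.inl (Or.inl (Or.inr ⟨l, hl, rfl⟩))) (u ℓ).2 hi1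
    rwa [← (Prod.ext huℓ rfl : u ℓ = ((X + (i1 : ℤ), (u ℓ).2) : V))] at this
  obtain ⟨w, n, hn, hw, hw0, hwn, hwF⟩ :=
    (hcolL.trans (reach_staircase X Y S (by omega) hS R)).trans hcolR.symm
  have hgle := (hgeo.sub hij hjL).2 w n hw hw0 hwn
  have hwcost : cost t w n ≤ n * s1 := by
    unfold cost
    refine (Finset.sum_le_sum fun k hk => (hlow _ (hwF k (Finset.mem_range.1 hk))).le).trans ?_
    simp
  have hnR : (n : ℤ) ≤ ℓ + (6 * R + 4) := by
    simp only [hu, add_zero] at hi0 hi1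
    rw [show i + ℓ = j by omega] at hi1
    rw [abs_le] at hi0 hi1
    have hS' : |S| ≤ |(v j).2 - (v i).2| + 2 * R := by
      have := abs_le.1 (le_refl |(v j).2 - (v i).2|)
      rw [abs_le]
      omega
    rw [show X + (i1 : ℤ) - X = i1 by ring, abs_of_nonneg (by positivity : (0 : ℤ) ≤ i1)] at hdist
    have : (S.natAbs : ℤ) = |S| := Int.natCast_natAbs S
    omega
  have hnR' : (n : ℝ) ≤ ℓ + (6 * R + 4) := by exact_mod_cast hnR
  have hℓm : (i1 : ℝ) ≤ ℓ := by exact_mod_cast hmℓ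
  have hdiff : 0 ≤ s2 - s1 := by
    by_contra h
    have : (2 : ℝ) ≤ i1 := by exact_mod_cast hm
    nlinarith [mul_nonneg (by positivity : (0 : ℝ) ≤ 6 * R + 4) hs1]
  nlinarith [mul_le_mul_of_nonneg_right hnR' hs1, mul_le_mul_of_nonneg_right hℓm hdiff]

end Vale.Agent.P158
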