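import Vale.Agent.P158.Prob

/-!
# P158: geodesics leave every line by at least a logarithm
-/

namespace Vale.Agent.P158

open MeasureTheory Filter Topology
open scoped ENNReal

lemma dom_x {X Y S : ℤ} {m R : ℕ} {e : Sym2 V} (he : e ∈ dom X Y S m R) :
    ∀ z ∈ e, X ≤ z.1 ∧ z.1 ≤ X + m := by
  have hb : ∀ z ∈ band X Y S m R, X ≤ z.1 ∧ z.1 ≤ X + m := fun z hz => by
    obtain ⟨i, hi, h, _⟩ := mem_band.1 hz
    omega
  unfold dom at he
  rcases Finset.mem_union.1 he with he | he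
  · simp only [outer, Finset.mem_union, Finset.mem_image, Finset.mem_range] at he
    rcases he with ((⟨l, _, rfl⟩ | ⟨l, _, rfl⟩) | ⟨i, hi, rfl⟩) | ⟨i, hi, rfl⟩ <;>
      intro z hz <;> rcases Sym2.mem_iff.1 hz with rfl | rfl <;>
      constructor <;> dsimp only <;> omega
  · obtain ⟨a, b⟩ := e
    obtain ⟨ha, hb', _⟩ := mem_inner.1 he
    intro z hz
    rcases Sym2.mem_iff.1 hz with rfl | rfl
    exacts [hb _ ha, hb _ hb']

/-- Left end of a block. -/
def bX (n m k : ℕ) : ℤ := -(n : ℤ) + k * (m + 1)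

/-- The block number `k` of the approximate line `(p, q)`. -/
def blk (n : ℕ) (p q : ℤ) (m R : ℕ) (s1 s2 : ℝ) (k : ℕ) : Set (Sym2 V → ℝ) :=
  Good (bX n m k) ((p * bX n m k + q * n) / n) (p * m / n) m R s1 s2

/-- Some approximate line has a long run of bad blocks. -/
def Fail (n m R : ℕ) (s1 s2 : ℝ) : Set (Sym2 V → ℝ) :=
  ⋃ p ∈ Finset.Icc (-(n : ℤ)) n, ⋃ q ∈ Finset.Icc (-(4 * (n : ℤ))) (4 * n),
    ⋃ k0 ∈ Finset.range (2 * n + 2),
      ⋂ k ∈ Finset.range (n / (8 * (m + 1))), (blk n p q m R s1 s2 (k0 + k))ᶜ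

lemma fail_meas (n m R : ℕ) (s1 s2 : ℝ) : MeasurableSet (Fail n m R s1 s2) := by
  unfold Fail
  exact Finset.measurableSet_biUnion _ fun p _ => Finset.measurableSet_biUnion _ fun q _ =>
    Finset.measurableSet_biUnion _ fun k0 _ => Finset.measurableSet_biInter _ fun k _ =>
      (mS_le _ _ (good_meas _ _ _ _ _ _ _)).compl

lemma slope_le {n m : ℕ} (hn : 0 < n) {p : ℤ} (hp : p ∈ Finset.Icc (-(n : ℤ)) n) :
    |p * (m : ℤ) / n| ≤ m := by
  rw [Finset.mem_Icc] at hp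
  have hn' : (0 : ℤ) < n := by exact_mod_cast hn
  rw [abs_le]
  constructor
  · rw [Int.le_ediv_iff_mul_le hn']
    nlinarith
  · rw [Int.ediv_le_iff_le_mul hn']
    nlinarith

lemma env_fail (G : Measure ℝ) [IsProbabilityMeasure G] (n : ℕ) (hn : 0 < n) {m R : ℕ}
    (s1 s2 lam : ℝ) (hlam : 0 < lam)
    (hI : ∫⁻ x, ENNReal.ofReal (Real.exp (lam * (s2 - x))) ∂G ≤ 1 / 16)
    (hR : 1 ≤ R) (hm : 4 * R ≤ m) :
    env G (Fail n m R s1 s2) ≤ ENNReal.ofReal ((2 * n + 1) * ((8 * n + 1) * ((2 * n + 2) *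
      (1 - (G (Set.Iio s1)).toReal ^ (2 * m + 4 * R + 4) / 2) ^ (n / (8 * (m + 1)))))) := by
  set g := (G (Set.Iio s1)).toReal with hg
  have hg1 : g ≤ 1 := ENNReal.toReal_le_of_le_ofReal zero_le_one (by simpa using prob_le_one)
  have hg0 : 0 ≤ g := ENNReal.toReal_nonneg
  set r := 1 - g ^ (2 * m + 4 * R + 4) / 2 with hr
  have hr0 : 0 ≤ r := by
    have := pow_le_one₀ hg0 hg1 (n := 2 * m + 4 * R + 4)
    linarith
  set N := n / (8 * (m + 1)) with hN
  have h1 : ∀ p ∈ Finset.Icc (-(n : ℤ)) n, ∀ q : ℤ, ∀ k0 : ℕ,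
      env G (⋂ k ∈ Finset.range N, (blk n p q m R s1 s2 (k0 + k))ᶜ) ≤ ENNReal.ofReal (r ^ N) := by
    intro p hp q k0
    rw [ENNReal.ofReal_pow hr0]
    refine env_all_fail G (fun k => dom (bX n m (k0 + k))
      ((p * bX n m (k0 + k) + q * n) / n) (p * m / n) m R) _ ?_ (fun k _ => good_meas _ _ _ _ _ _ _)
      _ fun k _ => ?_
    · intro k _ l hl
      rw [Finset.disjoint_left]
      intro e he he'
      obtain ⟨z, hz⟩ : ∃ z, z ∈ e := ⟨e.out.1, Sym2.out_fst_mem e⟩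
      have h := dom_x he z hz
      have h' := dom_x he' z hz
      unfold bX at h h'
      push_cast at h h'
      have : (l : ℤ) + 1 ≤ k := by exact_mod_cast hl
      nlinarith
    · refine (env_good_compl G _ _ _ s1 s2 lam hlam hI (slope_le hn hp) hR hm).trans (le_of_eq ?_)
      rw [hr, ENNReal.ofReal_sub _ (by positivity), ENNReal.ofReal_one,
        ENNReal.ofReal_div_of_pos two_pos, ENNReal.ofReal_pow hg0, hg,
        ENNReal.ofReal_toReal (measure_ne_top _ _), ENNReal.ofReal_ofNat]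
      simp [div_eq_mul_inv]
  have hcast : ∀ a : ℕ, (a : ℝ≥0∞) = ENNReal.ofReal a := fun a => (ENNReal.ofReal_natCast a).symm
  unfold Fail
  refine (measure_biUnion_finset_le _ _).trans
    ((Finset.sum_le_card_nsmul _ _ (ENNReal.ofReal ((8 * n + 1) * ((2 * n + 2) * r ^ N))) fun p hp => ?_).trans
      (le_of_eq ?_))
  · refine (measure_biUnion_finset_le _ _).trans
      ((Finset.sum_le_card_nsmul _ _ (ENNReal.ofReal ((2 * n + 2) * r ^ N)) fun q _ => ?_).trans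
        (le_of_eq ?_))
    · refine (measure_biUnion_finset_le _ _).trans
        ((Finset.sum_le_card_nsmul _ _ (ENNReal.ofReal (r ^ N)) fun k0 _ => h1 p hp q k0).trans
          (le_of_eq ?_))
      rw [nsmul_eq_mul, Finset.card_range, hcast, ← ENNReal.ofReal_mul (by positivity)]
      push_cast
      rfl
    · rw [nsmul_eq_mul, Int.card_Icc,
        show (4 * (n : ℤ) + 1 - -(4 * (n : ℤ))).toNat = 8 * n + 1 by omega, hcast,
        ← ENNReal.ofReal_mul (by positivity)]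
      push_cast
      rfl
  · rw [nsmul_eq_mul, Int.card_Icc, show ((n : ℤ) + 1 - -(n : ℤ)).toNat = 2 * n + 1 by omega, hcast,
      ← ENNReal.ofReal_mul (by positivity)]
    push_cast
    rfl

lemma ctr_close {n m i p q X y R0 : ℤ} (hn : 0 < n) (hm : 0 < m) (hi : 0 ≤ i) (him : i ≤ m)
    (hc : |y * n - (p * (X + i) + q * n)| ≤ R0 * n) :
    |y - ((p * X + q * n) / n + p * m / n * i / m)| ≤ R0 + 3 := by
  obtain ⟨hc1, hc2⟩ := abs_le.1 hc
  have y1 := Int.ediv_mul_le (p * X + q * n) hn.ne'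
  have y2 := Int.lt_ediv_add_one_mul_self (p * X + q * n) hn
  have t1 := Int.ediv_mul_le (p * m) hn.ne'
  have t2 := Int.lt_ediv_add_one_mul_self (p * m) hn
  generalize hY : (p * X + q * n) / n = Y at *
  generalize hS : p * m / n = S at *
  have c1 := Int.ediv_mul_le (S * i) hm.ne'
  have c2 := Int.lt_ediv_add_one_mul_self (S * i) hm
  generalize hC : S * i / m = C at *
  clear hY hS hC hc
  have hnm : 0 < n * m := mul_pos hn hm
  have a1 := mul_le_mul_of_nonneg_left hc1 hm.le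
  have a2 := mul_le_mul_of_nonneg_left hc2 hm.le
  have b1 := mul_le_mul_of_nonneg_left y1 hm.le
  have b2 := mul_lt_mul_of_pos_left y2 hm
  have d1 := mul_le_mul_of_nonneg_left c1 hn.le
  have d2 := mul_lt_mul_of_pos_left c2 hn
  have e1 := mul_le_mul_of_nonneg_left t1 hi
  have e2 := mul_le_mul_of_nonneg_left t2.le hi
  have f := mul_le_mul_of_nonneg_left him hn.le
  rw [abs_le]
  constructor
  · refine le_of_mul_le_mul_left ?_ hnm
    linarith
  · refine le_of_mul_le_mul_left ?_ hnm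
    linarith

/-- Away from `Fail` no geodesic follows an approximate line for a quarter of the box. -/
lemma no_follow {t : Sym2 V → ℝ} {n m R R0 : ℕ} {s1 s2 : ℝ} (hn : 0 < n)
    (hs1 : 0 ≤ s1) (hcond : (6 * R + 4) * s1 ≤ m * (s2 - s1)) (hm : 2 ≤ m)
    (hR : R0 + 3 ≤ R) (hN : 8 * (m + 1) ≤ n)
    (ht : t ∉ Fail n m R s1 s2) {v : ℕ → V} {L : ℕ} (hgeo : IsGeo t v L)
    (hinj : Set.InjOn v (Set.Iic L)) {p q : ℤ} (hp : p ∈ Finset.Icc (-(n : ℤ)) n)
    (hq : q ∈ Finset.Icc (-(4 * (n : ℤ))) (4 * n)) (hx0 : -(n : ℤ) ≤ (v 0).1)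
    (hxL : (v L).1 ≤ n) (hspan : 4 * (v 0).1 + n ≤ 4 * (v L).1)
    (hclose : ∀ k ≤ L, |(v k).2 * n - (p * (v k).1 + q * n)| ≤ R0 * n) : False := by
  set a := ((v 0).1 + n).toNat with ha
  have ha' : (a : ℤ) = (v 0).1 + n := Int.toNat_of_nonneg (by linarith)
  set k0 := a / (m + 1) + 1 with hk0
  set N := n / (8 * (m + 1)) with hNdef
  have hk0' : k0 < 2 * n + 2 := by
    have := Nat.div_le_self a (m + 1)
    omega
  obtain ⟨k, hk, hgood⟩ : ∃ k ∈ Finset.range N, t ∈ blk n p q m R s1 s2 (k0 + k) := by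
    by_contra h
    refine ht (Set.mem_iUnion₂.2 ⟨p, hp, Set.mem_iUnion₂.2 ⟨q, hq, Set.mem_iUnion₂.2
      ⟨k0, Finset.mem_range.2 hk0', Set.mem_iInter₂.2 fun k hk hmem => h ⟨k, hk, hmem⟩⟩⟩⟩)
  rw [Finset.mem_range] at hk
  set X := bX n m (k0 + k) with hX
  have hmul1 : a < k0 * (m + 1) := Nat.lt_mul_of_div_lt (by omega) (by omega)
  have hmul2 : k0 * (m + 1) ≤ a + (m + 1) := by
    rw [hk0, add_mul, one_mul]
    linarith [Nat.div_mul_le_self a (m + 1)]
  have hmul3 : (k + 1) * (m + 1) * 8 ≤ n :=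
    calc (k + 1) * (m + 1) * 8 ≤ N * (8 * (m + 1)) := by nlinarith
      _ ≤ n := Nat.div_mul_le_self _ _
  have hX1 : (v 0).1 ≤ X := by
    have : (a : ℤ) < k0 * (m + 1) := by exact_mod_cast hmul1
    rw [hX, bX]
    push_cast
    nlinarith
  have hX2 : X + m ≤ (v L).1 := by
    have e1 : (k0 : ℤ) * (m + 1) ≤ a + (m + 1) := by exact_mod_cast hmul2
    have e2 : ((k : ℤ) + 1) * (m + 1) * 8 ≤ n := by exact_mod_cast hmul3
    have e3 : 8 * ((m : ℤ) + 1) ≤ n := by exact_mod_cast hN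
    rw [hX, bX]
    push_cast
    nlinarith
  have hS := slope_le (m := m) hn hp
  have hlow : t ∈ Low X ((p * X + q * n) / n) (p * m / n) m R s1 := hgood.1
  have hhigh : t ∈ High X ((p * X + q * n) / n) (p * m / n) m R s2 := by
    by_contra h
    exact hgood.2 (high_compl _ _ _ hm _ _ h)
  refine block_contra hgeo hinj hm hS hs1 hcond hlow hhigh hX1 hX2 fun j hj h1 h2 => ?_
  refine mem_band.2 ⟨((v j).1 - X).toNat, by omega, by omega, ?_⟩
  set i := ((v j).1 - X).toNat with hi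
  have hi' : (v j).1 = X + i := by omega
  have him : (i : ℤ) ≤ m := by omega
  have hn' : (0 : ℤ) < n := by exact_mod_cast hn
  have hc := hclose j hj
  rw [hi'] at hc
  unfold ctr
  refine (ctr_close hn' (show (0 : ℤ) < m by omega) (Int.natCast_nonneg i) him hc).trans ?_
  omega

/-- Self-avoiding geodesic segments of size `n` leave every line. -/
def Dev (c : ℝ) (n : ℕ) : Set (Sym2 V → ℝ) :=
  {t | ∀ (v : ℕ → V) (L : ℕ), IsGeo t v L → Set.InjOn v (Set.Iic L) →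
    (∀ k ≤ L, |(v k).1| ≤ n ∧ |(v k).2| ≤ n) →
    (n : ℤ) ≤ 2 * max |(v L).1 - (v 0).1| |(v L).2 - (v 0).2| →
    ∀ a b d : ℝ, a ^ 2 + b ^ 2 = 1 →
      ∃ k ≤ L, c * Real.log n < |a * (v k).1 + b * (v k).2 + d|}

/-- Exchange of the two coordinates on edges. -/
def swapT (t : Sym2 V → ℝ) : Sym2 V → ℝ := fun e => t (Sym2.map Prod.swap e)

lemma swap_cost (t : Sym2 V → ℝ) (v : ℕ → V) (L : ℕ) :
    cost (swapT t) (fun k => (v k).swap) L = cost t v L := by
  simp [cost, swapT]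

lemma IsGeo.swap {t : Sym2 V → ℝ} {v : ℕ → V} {L : ℕ} (h : IsGeo t v L) :
    IsGeo (swapT t) (fun k => (v k).swap) L := by
  have hadj : ∀ {w : ℕ → V} {M : ℕ}, IsPath w M → IsPath (fun k => (w k).swap) M := by
    intro w M hw k hk
    have := hw k hk
    unfold Adj at *
    simpa [add_comm] using this
  refine ⟨hadj h.1, fun w M hw h0 hM => ?_⟩
  have := h.2 (fun k => (w k).swap) M (hadj hw) (by simp [h0]) (by simp [hM])
  rw [swap_cost]
  refine this.trans (le_of_eq ?_)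
  rw [← swap_cost t (fun k => (w k).swap) M]
  simp

/-- The case of a line closer to horizontal than to vertical. -/
lemma dev_x {t : Sym2 V → ℝ} {n m R R0 : ℕ} {s1 s2 W : ℝ} (hn : 0 < n) (hs1 : 0 ≤ s1)
    (hcond : (6 * R + 4) * s1 ≤ m * (s2 - s1)) (hm : 2 ≤ m) (hR : R0 + 3 ≤ R)
    (hN : 8 * (m + 1) ≤ n) (hW0 : 0 ≤ W) (hW : 16 * W ≤ n) (hR0 : 2 * W + 2 ≤ R0)
    (ht : t ∉ Fail n m R s1 s2) {v : ℕ → V} {L : ℕ} (hgeo : IsGeo t v L)
    (hinj : Set.InjOn v (Set.Iic L)) (hbox : ∀ k ≤ L, |(v k).1| ≤ n ∧ |(v k).2| ≤ n)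
    (hlong : (n : ℤ) ≤ 2 * max |(v L).1 - (v 0).1| |(v L).2 - (v 0).2|)
    {a b d : ℝ} (hab : a ^ 2 + b ^ 2 = 1) (hle : |a| ≤ |b|)
    (hclose : ∀ k ≤ L, |a * (v k).1 + b * (v k).2 + d| ≤ W) : False := by
  have hb2 : 1 / 2 ≤ b ^ 2 := by
    have := sq_le_sq.2 hle
    linarith
  have hbabs : 1 / 2 ≤ |b| := by nlinarith [sq_abs b, abs_nonneg b]
  have hb : b ≠ 0 := fun h => by rw [h] at hb2; norm_num at hb2
  set α := a / b with hα
  set β := d / b with hβ
  have hα1 : |α| ≤ 1 := by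
    rw [hα, abs_div, div_le_one (by linarith)]
    exact hle
  have hv : ∀ k ≤ L, |((v k).2 : ℝ) + α * (v k).1 + β| ≤ 2 * W := by
    intro k hk
    have h := hclose k hk
    rw [show a * (v k).1 + b * (v k).2 + d = b * (((v k).2 : ℝ) + α * (v k).1 + β) by
      rw [hα, hβ]; field_simp; ring, abs_mul] at h
    nlinarith [abs_nonneg (((v k).2 : ℝ) + α * (v k).1 + β)]
  have hcoord : ∀ k ≤ L, |((v k).1 : ℝ)| ≤ n ∧ |((v k).2 : ℝ)| ≤ n := fun k hk => by
    obtain ⟨h1, h2⟩ := hbox k hk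
    exact ⟨by exact_mod_cast h1, by exact_mod_cast h2⟩
  rw [abs_le] at hα1
  set p : ℤ := ⌊-α * n⌋ with hp
  set q : ℤ := ⌊-β⌋ with hq
  have hn0 : (0 : ℝ) < n := by exact_mod_cast hn
  have hpI : p ∈ Finset.Icc (-(n : ℤ)) n := by
    rw [Finset.mem_Icc, hp]
    constructor
    · rw [Int.le_floor]; push_cast; nlinarith
    · rw [Int.floor_le_iff]; push_cast; nlinarith
  have hβb : |β| ≤ 3 * n := by
    have h0 := abs_le.1 (hv 0 (Nat.zero_le _))
    obtain ⟨h1, h2⟩ := hcoord 0 (Nat.zero_le _)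
    rw [abs_le] at h1 h2 ⊢
    constructor <;> nlinarith
  have hqI : q ∈ Finset.Icc (-(4 * (n : ℤ))) (4 * n) := by
    rw [abs_le] at hβb
    rw [Finset.mem_Icc, hq]
    constructor
    · rw [Int.le_floor]; push_cast; linarith
    · rw [Int.floor_le_iff]; push_cast; linarith
  have hclose' : ∀ k ≤ L, |(v k).2 * n - (p * (v k).1 + q * n)| ≤ R0 * n := by
    intro k hk
    have hp1 := Int.floor_le (-α * n)
    have hp2 := Int.lt_floor_add_one (-α * n)
    have hq1 := Int.floor_le (-β)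
    have hq2 := Int.lt_floor_add_one (-β)
    rw [← hp] at hp1 hp2
    rw [← hq] at hq1 hq2
    have hx := abs_le.1 (hcoord k hk).1
    have hy := abs_le.1 (hv k hk)
    have e1 : |((-α * n) - p) * ((v k).1 : ℝ)| ≤ 1 * n := by
      rw [abs_mul]
      exact mul_le_mul (abs_le.2 ⟨by linarith, by linarith⟩) (hcoord k hk).1 (abs_nonneg _) zero_le_one
    rw [abs_le] at e1
    have e2 := mul_le_mul_of_nonneg_right hR0 hn0.le
    have key : |(((v k).2 * n - (p * (v k).1 + q * n) : ℤ) : ℝ)| ≤ ((R0 * n : ℕ) : ℝ) := by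
      push_cast
      rw [abs_le]
      constructor <;> nlinarith
    exact_mod_cast key
  have hspan : (n : ℤ) ≤ 4 * |(v L).1 - (v 0).1| := by
    have h0 := abs_le.1 (hv 0 (Nat.zero_le _))
    have hL := abs_le.1 (hv L le_rfl)
    have hy : |(((v L).2 - (v 0).2 : ℤ) : ℝ)| ≤ |(((v L).1 - (v 0).1 : ℤ) : ℝ)| + 4 * W := by
      push_cast
      have hm1 : |α * (((v L).1 : ℝ) - (v 0).1)| ≤ |((v L).1 : ℝ) - (v 0).1| := by
        rw [abs_mul]; exact mul_le_of_le_one_left (abs_nonneg _) (abs_le.2 hα1)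
      rw [abs_le] at hm1 ⊢
      constructor <;> linarith
    rcases max_cases |(v L).1 - (v 0).1| |(v L).2 - (v 0).2| with ⟨h, _⟩ | ⟨h, _⟩
    · rw [h] at hlong
      linarith [abs_nonneg ((v L).1 - (v 0).1)]
    · rw [h] at hlong
      have hl : ((n : ℤ) : ℝ) ≤ ((2 * |(v L).2 - (v 0).2| : ℤ) : ℝ) := by exact_mod_cast hlong
      push_cast at hl hy
      have : ((n : ℤ) : ℝ) ≤ ((4 * |(v L).1 - (v 0).1| : ℤ) : ℝ) := by
        push_cast; linarith
      exact_mod_cast this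
  rcases le_total (v 0).1 (v L).1 with hdir | hdir
  · rw [abs_of_nonneg (by linarith)] at hspan
    exact no_follow hn hs1 hcond hm hR hN ht hgeo hinj hpI hqI
      (abs_le.1 (hbox 0 (Nat.zero_le _)).1).1 (abs_le.1 (hbox L le_rfl).1).2 (by linarith) hclose'
  · rw [abs_of_nonpos (by linarith)] at hspan
    refine no_follow hn hs1 hcond hm hR hN ht hgeo.reverse (fun x hx y hy hxy => ?_) hpI hqI
      ?_ ?_ ?_ (fun k _ => hclose' (L - k) (Nat.sub_le _ _))
    · simp only [Set.mem_Iic] at hx hy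
      have := hinj (show L - x ∈ Set.Iic L by simp) (show L - y ∈ Set.Iic L by simp) hxy
      omega
    all_goals simp only [rev, Nat.sub_self, Nat.sub_zero]
    · exact (abs_le.1 (hbox L le_rfl).1).1
    · exact (abs_le.1 (hbox 0 (Nat.zero_le _)).1).2
    · linarith

lemma fac_bound {g c : ℝ} {K n R : ℕ} (hg0 : 0 < g) (hg1 : g ≤ 1) (hc0 : 0 ≤ c) (hc16 : c ≤ 1 / 16)
    (hcden : c * (4 * (2 * (K : ℝ) + 8) * (1 - Real.log g)) ≤ 1) (hK4 : 4 ≤ K) (hn : 1 ≤ n)
    (hR : R = ⌈2 * (c * Real.log n)⌉₊ + 2 + 3) :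
    (1 - g ^ (2 * (K * R) + 4 * R + 4) / 2) ^ (n / (8 * (K * R + 1))) ≤
      Real.exp 1 * Real.exp (-(g ^ (6 * (2 * K + 8)) / (320 * (K : ℝ))) * (n : ℝ) ^ (1 / 4 : ℝ)) ∧
    ((K * R : ℕ) : ℝ) + 1 ≤ 20 * K * (n : ℝ) ^ (1 / 4 : ℝ) := by
  have hlg : Real.log g ≤ 0 := Real.log_nonpos hg0.le hg1
  set D := g ^ (6 * (2 * K + 8)) with hD
  have hD0 : 0 < D := pow_pos hg0 _
  have hn1 : (1 : ℝ) ≤ n := by exact_mod_cast hn
  have hK0 : (4 : ℝ) ≤ K := by exact_mod_cast hK4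
  set x := (n : ℝ) ^ (1 / 4 : ℝ) with hxdef
  set ℓ := Real.log n with hℓdef
  have hℓ : 0 ≤ ℓ := Real.log_nonneg hn1
  have hx1 : 1 ≤ x := Real.one_le_rpow hn1 (by norm_num)
  have hℓx : ℓ ≤ 4 * x := by
    have := Real.log_le_rpow_div (n.cast_nonneg (α := ℝ)) (show (0 : ℝ) < 1 / 4 by norm_num)
    rw [← hℓdef, ← hxdef] at this
    linarith
  have hcl : 0 ≤ c * ℓ := mul_nonneg hc0 hℓ
  have hRle : (R : ℝ) ≤ 2 * (c * ℓ) + 6 := by
    have := Nat.ceil_lt_add_one (show 0 ≤ 2 * (c * ℓ) by linarith)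
    rw [hR]
    push_cast
    linarith
  have hcx : c * ℓ ≤ x / 4 := by
    have := mul_le_mul hc16 hℓx hℓ (by norm_num)
    linarith
  have hm1 : ((K * R : ℕ) : ℝ) + 1 ≤ 20 * K * x := by
    have h1 : (K : ℝ) * R ≤ K * (10 * x) := mul_le_mul_of_nonneg_left (by linarith) (by linarith)
    have h2 : (4 : ℝ) * 1 ≤ K * x := mul_le_mul hK0 hx1 zero_le_one (by linarith)
    push_cast
    linarith
  refine ⟨?_, hm1⟩
  set E := 2 * (K * R) + 4 * R + 4 with hEdef
  have hE : (E : ℝ) ≤ (2 * K + 8) * (2 * (c * ℓ) + 6) := by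
    have h1 : (2 * (K : ℝ) + 4) * R ≤ (2 * K + 4) * (2 * (c * ℓ) + 6) :=
      mul_le_mul_of_nonneg_left hRle (by linarith)
    rw [hEdef]
    push_cast
    linarith
  set y := g ^ E / 2 with hy
  have hy1 : y ≤ 1 := by
    have := pow_le_one₀ hg0.le hg1 (n := E)
    linarith
  have hlow : D * x⁻¹ ^ 2 ≤ g ^ E := by
    have h1 : g ^ E = Real.exp (E * Real.log g) := by rw [Real.exp_nat_mul, Real.exp_log hg0]
    have h2 : D = Real.exp ((6 * (2 * K + 8) : ℕ) * Real.log g) := by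
      rw [Real.exp_nat_mul, Real.exp_log hg0]
    have h3 : x⁻¹ ^ 2 = Real.exp (-(ℓ / 2)) := by
      rw [hxdef, ← Real.rpow_neg (n.cast_nonneg), Real.rpow_def_of_pos (by linarith),
        ← Real.exp_nat_mul, ← hℓdef]
      congr 1
      push_cast
      ring
    rw [h1, h2, h3, ← Real.exp_add, Real.exp_le_exp]
    push_cast
    have h4 := mul_le_mul_of_nonpos_right hE hlg
    have h5 := mul_le_mul_of_nonneg_right hcden hℓ
    linarith [mul_nonneg hcl (show (0 : ℝ) ≤ 2 * K + 8 by linarith)]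
  set N := n / (8 * (K * R + 1)) with hNdef
  have hN : x ^ 3 / (160 * K) ≤ (N : ℝ) + 1 := by
    have h1 : n < (N + 1) * (8 * (K * R + 1)) := by
      rw [mul_comm]
      exact Nat.lt_mul_div_succ n (by positivity)
    have h2 : (n : ℝ) ≤ ((N : ℝ) + 1) * (8 * (((K * R : ℕ) : ℝ) + 1)) := by exact_mod_cast h1.le
    have h3 : x ^ 4 = n := by
      rw [hxdef, ← Real.rpow_natCast ((n : ℝ) ^ (1 / 4 : ℝ)) 4, ← Real.rpow_mul (n.cast_nonneg)]
      norm_num
    rw [div_le_iff₀ (by positivity)]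
    refine le_of_mul_le_mul_right (a := x) ?_ (by linarith)
    calc x ^ 3 * x = n := by rw [← h3]; ring
      _ ≤ _ := h2
      _ ≤ ((N : ℝ) + 1) * (8 * (20 * K * x)) := by gcongr
      _ = _ := by ring
  refine ((pow_le_pow_left₀ (by linarith) (Real.one_sub_le_exp_neg y) N)).trans ?_
  rw [← Real.exp_nat_mul, ← Real.exp_add, Real.exp_le_exp]
  have hy0 : 0 ≤ y := by positivity
  have h6 : D / (320 * (K : ℝ)) * x ≤ ((N : ℝ) + 1) * y := by
    calc D / (320 * (K : ℝ)) * x = (x ^ 3 / (160 * K)) * (D * x⁻¹ ^ 2 / 2) := by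
          field_simp; ring
      _ ≤ ((N : ℝ) + 1) * y :=
        mul_le_mul hN (by rw [hy]; linarith) (by positivity) (by positivity)
  linarith

lemma poly_bound {n : ℕ} {x r X : ℝ} (hn : 1 ≤ n) (h4 : x ^ 4 = n) (hr0 : 0 ≤ r) (hX : 0 ≤ X)
    (hr : r ≤ Real.exp 1 * X) (hs : 200 * Real.exp 1 * x ^ 20 * X ≤ 1) :
    (2 * (n : ℝ) + 1) * ((8 * n + 1) * ((2 * n + 2) * r)) ≤ 1 / (n : ℝ) ^ 2 := by
  have hn1 : (1 : ℝ) ≤ n := by exact_mod_cast hn
  have h20 : x ^ 20 = (n : ℝ) ^ 5 := by rw [← h4]; ring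
  rw [h20] at hs
  rw [le_div_iff₀ (by positivity)]
  calc (2 * (n : ℝ) + 1) * ((8 * n + 1) * ((2 * n + 2) * r)) * (n : ℝ) ^ 2
      ≤ (3 * n) * ((9 * n) * ((4 * n) * (Real.exp 1 * X))) * (n : ℝ) ^ 2 := by
        gcongr <;> linarith
    _ = 108 * (Real.exp 1 * (n : ℝ) ^ 5 * X) := by ring
    _ ≤ 1 := by
        have : 0 ≤ Real.exp 1 * (n : ℝ) ^ 5 * X := by positivity
        linarith

/-- The main theorem. -/
theorem dev_ae (G : Measure ℝ) [IsProbabilityMeasure G] (h0 : G (Set.Iio 0) = 0)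
    (hatom : ∀ x, G {x} = 0) :
    ∃ c : ℝ, 0 < c ∧ ∀ᵐ t ∂env G, ∀ᶠ n : ℕ in atTop, t ∈ Dev c n := by
  obtain ⟨s1, s2, lam, hs1, hs12, hlam, hgpos, hI⟩ := exists_thresholds G h0 hatom
  set g := (G (Set.Iio s1)).toReal with hg
  have hg0 : 0 < g := ENNReal.toReal_pos hgpos.ne' (measure_ne_top _ _)
  have hg1 : g ≤ 1 := ENNReal.toReal_le_of_le_ofReal zero_le_one (by simpa using prob_le_one)
  obtain ⟨K, hK4, hK⟩ : ∃ K : ℕ, 4 ≤ K ∧ 10 * s1 ≤ K * (s2 - s1) := by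
    refine ⟨max 4 ⌈10 * s1 / (s2 - s1)⌉₊, le_max_left _ _, ?_⟩
    rw [← div_le_iff₀ (by linarith)]
    exact (Nat.le_ceil _).trans (by exact_mod_cast le_max_right _ _)
  have hlg : Real.log g ≤ 0 := Real.log_nonpos hg0.le hg1
  set den := 4 * (2 * (K : ℝ) + 8) * (1 - Real.log g) with hden
  have hden0 : 0 < den := mul_pos (by positivity) (by linarith)
  set c := min (1 / 16) (1 / den) with hc
  have hc0 : 0 < c := lt_min (by norm_num) (by positivity)
  have hc16 : c ≤ 1 / 16 := min_le_left _ _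
  have hcden : c * den ≤ 1 :=
    (mul_le_mul_of_nonneg_right (min_le_right _ _) hden0.le).trans
      (le_of_eq (by field_simp))
  set R0 : ℕ → ℕ := fun n => ⌈2 * (c * Real.log n)⌉₊ + 2 with hR0
  set R : ℕ → ℕ := fun n => R0 n + 3 with hR
  set m : ℕ → ℕ := fun n => K * R n with hm
  set F : ℕ → Set (Sym2 V → ℝ) := fun n => Fail n (m n) (R n) s1 s2 with hF
  refine ⟨c, hc0, ?_⟩
  set D := g ^ (6 * (2 * K + 8)) with hD
  have hD0 : 0 < D := pow_pos hg0 _
  have hD1 : D ≤ 1 := pow_le_one₀ hg0.le hg1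
  set A := D / (320 * (K : ℝ)) with hA
  have hK0 : (4 : ℝ) ≤ K := by exact_mod_cast hK4
  have hA0 : 0 < A := by positivity
  have hfac : ∀ n : ℕ, 1 ≤ n →
      (1 - g ^ (2 * m n + 4 * R n + 4) / 2) ^ (n / (8 * (m n + 1))) ≤
        Real.exp 1 * Real.exp (-A * (n : ℝ) ^ (1 / 4 : ℝ)) ∧
      (m n : ℝ) + 1 ≤ 20 * K * (n : ℝ) ^ (1 / 4 : ℝ) := fun n hn =>
    fac_bound hg0 hg1 hc0.le hc16 hcden hK4 hn (R := R n) rfl
  have hx4 : Tendsto (fun n : ℕ => (n : ℝ) ^ (1 / 4 : ℝ)) atTop atTop :=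
    (tendsto_rpow_atTop (by norm_num)).comp tendsto_natCast_atTop_atTop
  have hpre : ∀ᶠ n : ℕ in atTop, 1 ≤ n ∧ 8 * (m n + 1) ≤ n ∧
      env G (F n) ≤ ENNReal.ofReal (1 / (n : ℝ) ^ 2) := by
    have hsmall : ∀ᶠ n : ℕ in atTop, 200 * Real.exp 1 *
        ((n : ℝ) ^ (1 / 4 : ℝ)) ^ 20 * Real.exp (-A * (n : ℝ) ^ (1 / 4 : ℝ)) ≤ 1 := by
      have := ((tendsto_rpow_mul_exp_neg_mul_atTop_nhds_zero 20 A hA0).comp hx4).const_mul
        (200 * Real.exp 1)
      rw [mul_zero] at this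
      filter_upwards [this.eventually (gt_mem_nhds zero_lt_one)] with n hn
      simp only [Function.comp_apply, Real.rpow_natCast,
        show (20 : ℝ) = ((20 : ℕ) : ℝ) by norm_num] at hn
      linarith
    filter_upwards [eventually_ge_atTop 1, hsmall, hx4.eventually_ge_atTop (160 * K)] with n hn hs hxK
    obtain ⟨hp, hmle⟩ := hfac n hn
    set x := (n : ℝ) ^ (1 / 4 : ℝ) with hxdef
    have h4 : x ^ 4 = n := by
      rw [hxdef, ← Real.rpow_natCast ((n : ℝ) ^ (1 / 4 : ℝ)) 4, ← Real.rpow_mul (n.cast_nonneg)]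
      norm_num
    have hn1 : (1 : ℝ) ≤ n := by exact_mod_cast hn
    have hx1 : 1 ≤ x := Real.one_le_rpow hn1 (by norm_num)
    refine ⟨hn, ?_, ?_⟩
    · have h1 : (8 : ℝ) * ((m n : ℝ) + 1) ≤ n := by
        have h2 : x ^ 2 ≤ x ^ 4 := pow_le_pow_right₀ hx1 (by norm_num)
        nlinarith
      exact_mod_cast h1
    · refine (env_fail G n hn s1 s2 lam hlam hI (by simp [hR]) ?_).trans (ENNReal.ofReal_le_ofReal ?_)
      · simp only [hm]
        gcongr
      · rw [← hg]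
        exact poly_bound hn h4 (pow_nonneg (by
          have := pow_le_one₀ hg0.le hg1 (n := 2 * m n + 4 * R n + 4)
          linarith) _) (Real.exp_nonneg _) hp hs
  obtain ⟨n0, hn0⟩ := eventually_atTop.1 hpre
  have hswap : MeasurePreserving swapT (env G) (env G) := by
    refine ⟨measurable_pi_lambda _ fun e => measurable_pi_apply _, ?_⟩
    exact Measure.map_infinitePi_infinitePi_of_inj (P := fun _ : Sym2 V => G)
      (Sym2.map.injective Prod.swap_injective)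
  have hsum : ∑' n : ℕ, env G (F (n + n0)) ≠ ∞ := by
    refine ne_top_of_le_ne_top ?_ (ENNReal.tsum_le_tsum fun n => (hn0 (n + n0) (by omega)).2.2)
    have hs := ((summable_nat_add_iff n0).2 (Real.summable_one_div_nat_pow.2 one_lt_two))
    rw [← ENNReal.ofReal_tsum_of_nonneg (fun n => by positivity) hs]
    exact ENNReal.ofReal_ne_top
  have h1 := ae_eventually_notMem (μ := env G) hsum
  have h2 : ∀ᵐ t ∂env G, ∀ᶠ n in atTop, t ∉ swapT ⁻¹' F (n + n0) := by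
    refine ae_eventually_notMem (μ := env G) (ne_of_eq_of_ne (tsum_congr fun n => ?_) hsum)
    exact hswap.measure_preimage (fail_meas _ _ _ _ _).nullMeasurableSet
  filter_upwards [h1, h2] with t ht1 ht2
  obtain ⟨N1, hN1⟩ := eventually_atTop.1 (ht1.and ht2)
  rw [eventually_atTop]
  refine ⟨N1 + n0, fun n hn v L hgeo hinj hbox hlong a b d hab => ?_⟩
  obtain ⟨hF1, hF2⟩ := hN1 (n - n0) (by omega)
  simp only [Set.mem_preimage, show n - n0 + n0 = n by omega] at hF1 hF2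
  obtain ⟨hn1, hmn, -⟩ := hn0 n (by omega)
  by_contra hcon
  push Not at hcon
  have hn1' : (1 : ℝ) ≤ n := by exact_mod_cast hn1
  have hℓ : 0 ≤ Real.log n := Real.log_nonneg hn1'
  have hW0 : 0 ≤ c * Real.log n := mul_nonneg hc0.le hℓ
  have hW : 16 * (c * Real.log n) ≤ n := by
    nlinarith [Real.log_le_sub_one_of_pos (show (0 : ℝ) < n by linarith)]
  have hR0' : 2 * (c * Real.log n) + 2 ≤ (R0 n : ℝ) := by
    simp only [hR0]; push_cast; linarith [Nat.le_ceil (2 * (c * Real.log n))]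
  have hR5 : 5 ≤ R n := by simp [hR, hR0]
  have hm2 : 2 ≤ m n := by simp only [hm]; nlinarith
  have hcond : (6 * (R n : ℝ) + 4) * s1 ≤ (m n : ℝ) * (s2 - s1) := by
    have : (5 : ℝ) ≤ R n := by exact_mod_cast hR5
    simp only [hm]
    push_cast
    nlinarith
  rcases le_total |a| |b| with hle | hle
  · exact dev_x (by omega) hs1 hcond hm2 le_rfl hmn hW0 hW hR0' hF1 hgeo hinj hbox hlong hab hle hcon
  · refine dev_x (by omega) hs1 hcond hm2 le_rfl hmn hW0 hW hR0' hF2 hgeo.swap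
      (fun x hx y hy h => hinj hx hy (Prod.swap_injective h))
      (fun k hk => (hbox k hk).symm) ?_ (a := b) (b := a) (d := d) (by linarith) hle fun k hk => ?_
    · simpa [max_comm] using hlong
    · simpa [add_comm] using hcon k hk

end Vale.Agent.P158
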