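import Vale.Agent.P158.Det

/-!
# P158: probability of a good block
-/

namespace Vale.Agent.P158

open MeasureTheory ProbabilityTheory Filter Topology
open scoped ENNReal

/-- The environment: independent weights of law `G`. -/
noncomputable def env (G : Measure ℝ) : Measure (Sym2 V → ℝ) := Measure.infinitePi fun _ => G

/-- Events depending only on the weights in `S`. -/
def mS (S : Finset (Sym2 V)) : MeasurableSpace (Sym2 V → ℝ) :=
  MeasurableSpace.comap (fun (t : Sym2 V → ℝ) (e : S) => t e) MeasurableSpace.pi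

lemma mS_le (S : Finset (Sym2 V)) : mS S ≤ MeasurableSpace.pi :=
  Measurable.comap_le (measurable_pi_lambda _ fun e => measurable_pi_apply _)

lemma mS_mono {S T : Finset (Sym2 V)} (h : S ⊆ T) : mS S ≤ mS T := by
  have : (fun (t : Sym2 V → ℝ) (e : S) => t e) =
      (fun (u : T → ℝ) (e : S) => u ⟨e.1, h e.2⟩) ∘ fun (t : Sym2 V → ℝ) (e : T) => t e := rfl
  unfold mS
  rw [this, ← MeasurableSpace.comap_comp]
  exact MeasurableSpace.comap_mono
    (Measurable.comap_le (measurable_pi_lambda _ fun e => measurable_pi_apply _))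

lemma meas_eval {S : Finset (Sym2 V)} {e : Sym2 V} (h : e ∈ S) :
    Measurable[mS S] fun t : Sym2 V → ℝ => t e :=
  Measurable.comp (measurable_pi_apply (⟨e, h⟩ : S))
    (comap_measurable fun (t : Sym2 V → ℝ) (e : S) => t e)

variable (G : Measure ℝ) [IsProbabilityMeasure G]

instance : IsProbabilityMeasure (env G) := by unfold env; infer_instance

lemma env_inter {S T : Finset (Sym2 V)} (hST : Disjoint S T) {A B : Set (Sym2 V → ℝ)}
    (hA : MeasurableSet[mS S] A) (hB : MeasurableSet[mS T] B) :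
    env G (A ∩ B) = env G A * env G B := by
  have hi : iIndepFun (fun (e : Sym2 V) (t : Sym2 V → ℝ) => t e) (env G) :=
    iIndepFun_infinitePi (X := fun _ x => x) fun _ => measurable_id
  obtain ⟨A', hA', rfl⟩ := hA
  obtain ⟨B', hB', rfl⟩ := hB
  exact (hi.indepFun_finset S T hST fun e => measurable_pi_apply e).measure_inter_preimage_eq_mul
    _ _ hA' hB'

/-- Independent events of small complement: all of them fail rarely. -/
lemma env_all_fail {N : ℕ} (U : ℕ → Finset (Sym2 V)) (B : ℕ → Set (Sym2 V → ℝ))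
    (hU : ∀ k < N, ∀ l < k, Disjoint (U l) (U k)) (hB : ∀ k < N, MeasurableSet[mS (U k)] (B k))
    (q : ℝ≥0∞) (hq : ∀ k < N, env G (B k)ᶜ ≤ q) :
    env G (⋂ k ∈ Finset.range N, (B k)ᶜ) ≤ q ^ N := by
  induction N with
  | zero => simp
  | succ N ih =>
    have hset : ⋂ k ∈ Finset.range (N + 1), (B k)ᶜ =
        (⋂ k ∈ Finset.range N, (B k)ᶜ) ∩ (B N)ᶜ := by
      rw [Finset.range_add_one, Finset.set_biInter_insert, Set.inter_comm]
    have hd : Disjoint ((Finset.range N).biUnion U) (U N) := by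
      rw [Finset.disjoint_biUnion_left]
      exact fun l hl => hU N (Nat.lt_succ_self N) l (Finset.mem_range.1 hl)
    rw [hset, env_inter G hd ?_ (hB N (Nat.lt_succ_self N)).compl, pow_succ]
    · exact mul_le_mul' (ih (fun k hk => hU k (hk.trans (Nat.lt_succ_self N)))
        (fun k hk => hB k (hk.trans (Nat.lt_succ_self N)))
        (fun k hk => hq k (hk.trans (Nat.lt_succ_self N)))) (hq N (Nat.lt_succ_self N))
    · refine @MeasurableSet.biInter _ _ (mS ((Finset.range N).biUnion U)) _ _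
        (Finset.countable_toSet _) fun k hk => ?_
      exact (mS_mono (Finset.subset_biUnion_of_mem U hk) _
        (hB k ((Finset.mem_range.1 hk).trans (Nat.lt_succ_self N)))).compl

lemma env_low (F : Finset (Sym2 V)) (s : ℝ) :
    env G {t | ∀ e ∈ F, t e < s} = G (Set.Iio s) ^ F.card := by
  have : {t : Sym2 V → ℝ | ∀ e ∈ F, t e < s} = Set.pi F (fun _ => Set.Iio s) := by
    ext t; simp [Set.mem_pi]
  rw [this]
  unfold env
  rw [Measure.infinitePi_pi _ (fun _ _ => measurableSet_Iio)]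
  simp

/-- Thresholds: cheap weights have positive probability, long sums of cheap weights are rare. -/
lemma exists_thresholds (h0 : G (Set.Iio 0) = 0) (hatom : ∀ x, G {x} = 0) :
    ∃ s1 s2 lam : ℝ, 0 ≤ s1 ∧ s1 < s2 ∧ 0 < lam ∧ 0 < G (Set.Iio s1) ∧
      ∫⁻ x, ENNReal.ofReal (Real.exp (lam * (s2 - x))) ∂G ≤ 1 / 16 := by
  set A := {s : ℝ | 0 < G (Set.Iio s)} with hA
  have hne : A.Nonempty := by
    by_contra h
    rw [Set.not_nonempty_iff_eq_empty] at h
    have hall : ∀ n : ℕ, G (Set.Iio (n : ℝ)) = 0 := fun n => by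
      by_contra hn
      have : (n : ℝ) ∈ A := pos_iff_ne_zero.2 hn
      rw [h] at this
      exact this
    have hu : (Set.univ : Set ℝ) = ⋃ n : ℕ, Set.Iio (n : ℝ) := by
      ext x; simpa using exists_nat_gt x
    have := measure_univ (μ := G)
    rw [hu, measure_iUnion_null hall] at this
    exact zero_ne_one this
  have hlb : ∀ s ∈ A, 0 ≤ s := fun s hs => by
    by_contra h
    exact hs.ne' (measure_mono_null (Set.Iio_subset_Iio (not_le.1 h).le) h0)
  set a := sInf A with ha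
  have ha0 : 0 ≤ a := le_csInf hne hlb
  have hIic : G (Set.Iic a) = 0 := by
    have hu : Set.Iic a = {a} ∪ ⋃ n : ℕ, Set.Iio (a - 1 / (n + 1)) := by
      ext x
      simp only [Set.mem_Iic, Set.mem_union, Set.mem_singleton_iff, Set.mem_iUnion, Set.mem_Iio]
      constructor
      · intro hx
        rcases eq_or_lt_of_le hx with h | h
        · exact Or.inl h
        · obtain ⟨n, hn⟩ := exists_nat_one_div_lt (sub_pos.2 h)
          exact Or.inr ⟨n, by linarith⟩
      · rintro (rfl | ⟨n, hn⟩)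
        · exact le_rfl
        · have : (0 : ℝ) < 1 / (n + 1) := by positivity
          linarith
    rw [hu, measure_union_null_iff]
    refine ⟨hatom a, measure_iUnion_null fun n => ?_⟩
    by_contra hn
    have h1 := csInf_le ⟨0, hlb⟩ (show a - 1 / ((n : ℝ) + 1) ∈ A from pos_iff_ne_zero.2 hn)
    have : (0 : ℝ) < 1 / (n + 1) := by positivity
    linarith
  have hae : ∀ᵐ x ∂G, a < x := by
    rw [ae_iff]
    simp only [not_lt]
    exact hIic
  have hlim : Tendsto (fun n : ℕ => ∫⁻ x, ENNReal.ofReal (Real.exp ((n + 1 : ℝ) * (a - x))) ∂G)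
      atTop (𝓝 (∫⁻ _, 0 ∂G)) := by
    refine tendsto_lintegral_of_dominated_convergence (fun _ => (1 : ℝ≥0∞)) (fun n => by fun_prop)
      (fun n => ?_) (by simp) ?_
    · filter_upwards [hae] with x hx
      rw [← ENNReal.ofReal_one]
      refine ENNReal.ofReal_le_ofReal (Real.exp_le_one_iff.2 ?_)
      nlinarith [n.cast_nonneg (α := ℝ)]
    · filter_upwards [hae] with x hx
      rw [← ENNReal.ofReal_zero]
      refine ENNReal.tendsto_ofReal (Real.tendsto_exp_atBot.comp ?_)
      exact (tendsto_atTop_add_const_right atTop (1 : ℝ) tendsto_natCast_atTop_atTop).atTop_mul_const_of_neg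
        (sub_neg.2 hx)
  rw [lintegral_zero] at hlim
  obtain ⟨n, hn⟩ := (hlim.eventually (gt_mem_nhds (show (0 : ℝ≥0∞) < 1 / 32 by simp))).exists
  set lam : ℝ := n + 1 with hlam
  have hlam0 : 0 < lam := by positivity
  have hl2 : 0 < Real.log 2 / lam := div_pos (Real.log_pos one_lt_two) hlam0
  obtain ⟨s, hs, hs'⟩ := exists_lt_of_csInf_lt hne (show a < a + Real.log 2 / lam / 2 by linarith)
  refine ⟨a + Real.log 2 / lam / 2, a + Real.log 2 / lam, lam, by linarith, by linarith, hlam0,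
    lt_of_lt_of_le hs (measure_mono (Set.Iio_subset_Iio hs'.le)), ?_⟩
  have heq : ∀ x, ENNReal.ofReal (Real.exp (lam * (a + Real.log 2 / lam - x))) =
      2 * ENNReal.ofReal (Real.exp (lam * (a - x))) := by
    intro x
    rw [show (2 : ℝ≥0∞) = ENNReal.ofReal 2 by simp, ← ENNReal.ofReal_mul zero_le_two]
    congr 1
    rw [show lam * (a + Real.log 2 / lam - x) = Real.log 2 + lam * (a - x) by field_simp; ring,
      Real.exp_add, Real.exp_log two_pos]
  simp only [heq]
  rw [lintegral_const_mul _ (by fun_prop)]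
  refine (mul_le_mul' le_rfl hn.le).trans (le_of_eq ?_)
  rw [one_div, one_div, show (32 : ℝ≥0∞) = 2 * 16 by norm_num,
    ENNReal.mul_inv (by simp) (by simp), ← mul_assoc, ENNReal.mul_inv_cancel (by simp) (by simp)]
  simp

lemma env_cheap_path (s2 lam : ℝ) (hlam : 0 < lam)
    (hI : ∫⁻ x, ENNReal.ofReal (Real.exp (lam * (s2 - x))) ∂G ≤ 1 / 16)
    {ℓ : ℕ} (e : ℕ → Sym2 V) (he : Set.InjOn e (Set.Iio ℓ)) :
    env G {t | ∑ k ∈ Finset.range ℓ, t (e k) ≤ ℓ * s2} ≤ (1 / 16) ^ ℓ := by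
  classical
  set g : Sym2 V → (Sym2 V → ℝ) → ℝ≥0∞ :=
    fun i t => ENNReal.ofReal (Real.exp (lam * (s2 - t i))) with hg
  have hi : iIndepFun g (env G) :=
    iIndepFun_infinitePi (X := fun _ x => ENNReal.ofReal (Real.exp (lam * (s2 - x))))
      fun _ => by fun_prop
  have hgm : ∀ i, Measurable (g i) := fun i => by
    simp only [hg]; fun_prop
  have hinj : Set.InjOn e ↑(Finset.range ℓ) := fun x hx y hy hxy => he (by simpa using hx)
    (by simpa using hy) hxy
  set s := (Finset.range ℓ).image e with hs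
  have hsub : {t : Sym2 V → ℝ | ∑ k ∈ Finset.range ℓ, t (e k) ≤ ℓ * s2} ⊆
      {t | 1 ≤ ∏ i ∈ s, g i t} := by
    intro t ht
    simp only [Set.mem_setOf_eq, hg, hs, Finset.prod_image hinj] at ht ⊢
    rw [← ENNReal.ofReal_prod_of_nonneg fun _ _ => (Real.exp_pos _).le, ← Real.exp_sum,
      ← ENNReal.ofReal_one]
    refine ENNReal.ofReal_le_ofReal (Real.one_le_exp ?_)
    rw [← Finset.mul_sum, Finset.sum_sub_distrib]
    refine mul_nonneg hlam.le ?_
    simp
    linarith
  refine (measure_mono hsub).trans ?_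
  have hmk := mul_meas_ge_le_lintegral₀ (μ := env G)
    (Finset.measurable_prod s fun i _ => hgm i).aemeasurable 1
  rw [one_mul] at hmk
  refine hmk.trans ?_
  rw [lintegral_prod_eq_prod_lintegral_of_indepFun s g hi hgm]
  refine (Finset.prod_le_prod' fun i _ => ?_).trans (b := ∏ _i ∈ s, (1 / 16 : ℝ≥0∞)) (le_of_eq ?_)
  · refine le_trans (le_of_eq ?_) hI
    have hmap := lintegral_map (μ := env G)
      (by fun_prop : Measurable fun x => ENNReal.ofReal (Real.exp (lam * (s2 - x))))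
      (measurable_pi_apply i)
    rw [env, Measure.infinitePi_map_eval] at hmap
    exact hmap.symm
  · rw [Finset.prod_const, hs, Finset.card_image_of_injOn hinj, Finset.card_range]

/-- The four unit steps. -/
def dir : Fin 4 → V := ![(1, 0), (-1, 0), (0, 1), (0, -1)]

lemma exists_dir {a b : V} (h : Adj a b) : ∃ d, b = a + dir d := by
  obtain ⟨a1, a2⟩ := a
  obtain ⟨b1, b2⟩ := b
  simp only [Adj] at h
  have h1 := abs_cases (a1 - b1)
  have h2 := abs_cases (a2 - b2)
  rcases eq_or_ne a1 b1 with rfl | hne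
  · rcases le_total a2 b2 with hh | hh
    · exact ⟨2, Prod.ext (by simp [dir]) (by simp [dir]; omega)⟩
    · exact ⟨3, Prod.ext (by simp [dir]) (by simp [dir]; omega)⟩
  · rcases le_total a1 b1 with hh | hh
    · exact ⟨0, Prod.ext (by simp [dir]; omega) (by simp [dir]; omega)⟩
    · exact ⟨1, Prod.ext (by simp [dir]; omega) (by simp [dir]; omega)⟩

/-- The vertices of the walk with start `a` and steps `d`. -/
def walk {ℓ : ℕ} (a : V) (d : Fin ℓ → Fin 4) (k : ℕ) : V :=
  a + ∑ i ∈ Finset.range k, if h : i < ℓ then dir (d ⟨i, h⟩) else 0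

lemma exists_walk {v : ℕ → V} {ℓ : ℕ} (h : IsPath v ℓ) :
    ∃ d : Fin ℓ → Fin 4, ∀ k ≤ ℓ, walk (v 0) d k = v k := by
  choose d hd using fun i : Fin ℓ => exists_dir (h i i.2)
  refine ⟨d, fun k hk => ?_⟩
  induction k with
  | zero => simp [walk]
  | succ k ih =>
    rw [hd ⟨k, by omega⟩, ← ih (by omega)]
    unfold walk
    rw [Finset.sum_range_succ, dif_pos (show k < ℓ by omega), add_assoc]

/-- A walk which is a self-avoiding crossing. -/
def Cand (X Y S : ℤ) (m R ℓ : ℕ) (a : V) (d : Fin ℓ → Fin 4) : Prop :=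
  Set.InjOn (walk a d) (Set.Iic ℓ) ∧
    ∀ k < ℓ, s(walk a d k, walk a d (k + 1)) ∈ inner X Y S m R

/-- The possible first vertices. -/
def starts (X Y : ℤ) (R : ℕ) : Finset V :=
  (Finset.range (2 * R + 1)).image fun l : ℕ => ((X, Y - R + (l : ℤ)) : V)

/-- Some crossing is cheap. -/
def Bad (X Y S : ℤ) (m R : ℕ) (s2 : ℝ) : Set (Sym2 V → ℝ) :=
  ⋃ ℓ ∈ Finset.Icc m ((m + 1) * (2 * R + 1)), ⋃ a ∈ starts X Y R, ⋃ d : Fin ℓ → Fin 4,
    {t | Cand X Y S m R ℓ a d ∧
      ∑ k ∈ Finset.range ℓ, t s(walk a d k, walk a d (k + 1)) ≤ ℓ * s2}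

lemma bad_meas (X Y S : ℤ) (m R : ℕ) (s2 : ℝ) :
    MeasurableSet[mS (inner X Y S m R)] (Bad X Y S m R s2) := by
  unfold Bad
  refine @Finset.measurableSet_biUnion _ _ (mS (inner X Y S m R)) _ _ fun ℓ _ =>
    @Finset.measurableSet_biUnion _ _ (mS (inner X Y S m R)) _ _ fun a _ =>
    @MeasurableSet.iUnion _ _ (mS (inner X Y S m R)) _ _ fun d => ?_
  by_cases hc : Cand X Y S m R ℓ a d
  · simp only [hc, true_and]
    have hf : Measurable[mS (inner X Y S m R)] fun t : Sym2 V → ℝ =>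
        ∑ k ∈ Finset.range ℓ, t s(walk a d k, walk a d (k + 1)) :=
      Finset.measurable_sum _ fun k hk => meas_eval (hc.2 k (Finset.mem_range.1 hk))
    exact hf measurableSet_Iic
  · simp [hc]

lemma high_compl (X Y S : ℤ) {m : ℕ} (hm : 2 ≤ m) (R : ℕ) (s2 : ℝ) :
    (High X Y S m R s2)ᶜ ⊆ Bad X Y S m R s2 := by
  intro t ht
  simp only [High, Set.mem_compl_iff, Set.mem_setOf_eq] at ht
  push Not at ht
  obtain ⟨v, ℓ, hℓ, hp, hinj, h0, hin, hc⟩ := ht
  have hband : ∀ k ≤ ℓ, v k ∈ band X Y S m R := by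
    intro k hk
    rcases eq_or_lt_of_le hk with rfl | hk'
    · have := (mem_inner.1 (hin (k - 1) (by omega))).2.1
      rwa [show k - 1 + 1 = k by omega] at this
    · exact (mem_inner.1 (hin k hk')).1
  have hcard : ℓ + 1 ≤ (m + 1) * (2 * R + 1) := by
    calc ℓ + 1 = ((Finset.range (ℓ + 1)).image v).card := by
          rw [Finset.card_image_of_injOn, Finset.card_range]
          exact fun x hx y hy hxy => hinj
            (show x ∈ Set.Iic ℓ by simp at hx ⊢; omega) (show y ∈ Set.Iic ℓ by simp at hy ⊢; omega) hxy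
      _ ≤ (band X Y S m R).card := Finset.card_le_card fun z hz => by
          obtain ⟨k, hk, rfl⟩ := Finset.mem_image.1 hz
          exact hband k (by simp at hk; omega)
      _ ≤ _ := Finset.card_image_le.trans (by simp)
  have hstart : v 0 ∈ starts X Y R := by
    obtain ⟨i, _, hx, hy⟩ := mem_band.1 (hband 0 (Nat.zero_le _))
    obtain rfl : i = 0 := by omega
    rw [ctr_zero, abs_le] at hy
    exact Finset.mem_image.2 ⟨((v 0).2 - Y + R).toNat, Finset.mem_range.2 (by omega),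
      Prod.ext h0.symm (by simp; omega)⟩
  obtain ⟨d, hd⟩ := exists_walk hp
  simp only [Bad, Set.mem_iUnion, Finset.mem_Icc]
  refine ⟨ℓ, ⟨hℓ, by omega⟩, v 0, hstart, d,
    ⟨fun x hx y hy hxy => hinj hx hy (by rwa [hd x hx, hd y hy] at hxy), fun k hk => ?_⟩, ?_⟩
  · rw [hd k hk.le, hd (k + 1) hk]
    exact hin k hk
  · refine le_trans (le_of_eq (Finset.sum_congr rfl fun k hk => ?_)) hc
    rw [hd k (Finset.mem_range.1 hk).le, hd (k + 1) (Finset.mem_range.1 hk)]

lemma env_bad (X Y S : ℤ) {m R : ℕ} (s2 lam : ℝ) (hlam : 0 < lam)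
    (hI : ∫⁻ x, ENNReal.ofReal (Real.exp (lam * (s2 - x))) ∂G ≤ 1 / 16)
    (hR : 1 ≤ R) (hm : 4 * R ≤ m) : env G (Bad X Y S m R s2) ≤ 1 / 2 := by
  classical
  unfold Bad
  refine (measure_biUnion_finset_le _ _).trans ?_
  have key : ∀ ℓ : ℕ, env G (⋃ a ∈ starts X Y R, ⋃ d : Fin ℓ → Fin 4,
      {t | Cand X Y S m R ℓ a d ∧
        ∑ k ∈ Finset.range ℓ, t s(walk a d k, walk a d (k + 1)) ≤ ℓ * s2}) ≤
      ENNReal.ofReal ((2 * R + 1) * (1 / 4 : ℝ) ^ ℓ) := by
    intro ℓ
    refine (measure_biUnion_finset_le _ _).trans ?_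
    have h1 : ∀ a ∈ starts X Y R, env G (⋃ d : Fin ℓ → Fin 4, {t | Cand X Y S m R ℓ a d ∧
        ∑ k ∈ Finset.range ℓ, t s(walk a d k, walk a d (k + 1)) ≤ ℓ * s2}) ≤
        ENNReal.ofReal ((1 / 4 : ℝ) ^ ℓ) := by
      intro a _
      refine (measure_iUnion_fintype_le _ _).trans ?_
      refine (Finset.sum_le_sum (g := fun _ => (1 / 16 : ℝ≥0∞) ^ ℓ) fun d _ => ?_).trans (le_of_eq ?_)
      · by_cases hc : Cand X Y S m R ℓ a d
        · refine (measure_mono fun t ht => ht.2).trans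
            (env_cheap_path G s2 lam hlam hI (fun k => s(walk a d k, walk a d (k + 1))) ?_)
          intro x hx y hy hxy
          simp only [Set.mem_Iio] at hx hy
          have hi : ∀ p q, p ≤ ℓ → q ≤ ℓ → walk a d p = walk a d q → p = q :=
            fun p q hp hq h => hc.1 hp hq h
          rcases Sym2.eq_iff.1 hxy with ⟨h, _⟩ | ⟨h, h'⟩
          · exact hi x y hx.le hy.le h
          · have e1 := hi x (y + 1) hx.le hy h
            have e2 := hi (x + 1) y hx hy.le h'
            omega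
        · simp [hc]
      · rw [Finset.sum_const, Finset.card_univ, Fintype.card_fun, Fintype.card_fin, Fintype.card_fin,
          nsmul_eq_mul, Nat.cast_pow, ← mul_pow, ENNReal.ofReal_pow (by norm_num : (0:ℝ) ≤ 1 / 4)]
        congr 1
        rw [ENNReal.ofReal_div_of_pos (by norm_num)]
        simp only [ENNReal.ofReal_one, ENNReal.ofReal_ofNat, Nat.cast_ofNat, one_div]
        rw [show (16 : ℝ≥0∞) = 4 * 4 by norm_num, ENNReal.mul_inv (by simp) (by simp), ← mul_assoc,
          ENNReal.mul_inv_cancel (by simp) (by simp), one_mul]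
    refine (Finset.sum_le_sum h1).trans ?_
    rw [Finset.sum_const, nsmul_eq_mul, ENNReal.ofReal_mul (p := (2 * R + 1 : ℝ)) (by positivity)]
    gcongr
    rw [show (2 * R + 1 : ℝ) = ((2 * R + 1 : ℕ) : ℝ) by push_cast; ring, ENNReal.ofReal_natCast]
    exact_mod_cast Finset.card_image_le.trans (Finset.card_range _).le
  refine (Finset.sum_le_sum fun ℓ _ => key ℓ).trans ?_
  rw [← ENNReal.ofReal_sum_of_nonneg fun ℓ _ => by positivity,
    show (1 / 2 : ℝ≥0∞) = ENNReal.ofReal (1 / 2) by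
      rw [ENNReal.ofReal_div_of_pos two_pos]; simp]
  refine ENNReal.ofReal_le_ofReal ?_
  rw [← Finset.mul_sum]
  have hgeom : ∑ ℓ ∈ Finset.Icc m ((m + 1) * (2 * R + 1)), (1 / 4 : ℝ) ^ ℓ
      ≤ (1 / 4) ^ m * (4 / 3) := by
    calc ∑ ℓ ∈ Finset.Icc m ((m + 1) * (2 * R + 1)), (1 / 4 : ℝ) ^ ℓ
        = ∑ i ∈ Finset.range ((m + 1) * (2 * R + 1) + 1 - m), (1 / 4 : ℝ) ^ (m + i) := by
          rw [← Finset.Ico_add_one_right_eq_Icc, Finset.sum_Ico_eq_sum_range]
      _ = (1 / 4) ^ m * ∑ i ∈ Finset.range ((m + 1) * (2 * R + 1) + 1 - m), (1 / 4 : ℝ) ^ i := by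
          rw [Finset.mul_sum]; exact Finset.sum_congr rfl fun i _ => pow_add _ _ _
      _ ≤ _ := by
          refine mul_le_mul_of_nonneg_left ?_ (by positivity)
          rw [geom_sum_eq (by norm_num)]
          have : (0 : ℝ) ≤ (1 / 4) ^ ((m + 1) * (2 * R + 1) + 1 - m) := by positivity
          rw [div_le_iff_of_neg (by norm_num)]
          linarith
  have hmono : (1 / 4 : ℝ) ^ m ≤ (1 / 256) ^ R := by
    refine (pow_le_pow_of_le_one (by norm_num) (by norm_num) hm).trans (le_of_eq ?_)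
    rw [pow_mul]; norm_num
  have hexp' : ∀ k : ℕ, 1 ≤ k → ((2 * k + 1 : ℕ) : ℝ) * (1 / 256) ^ k ≤ 3 / 256 := by
    intro k hk
    induction k, hk using Nat.le_induction with
    | base => norm_num
    | succ k hk ih =>
      have : (0 : ℝ) < (1 / 256) ^ k := by positivity
      have : (1 : ℝ) ≤ k := by exact_mod_cast hk
      rw [pow_succ]
      push_cast at ih ⊢
      nlinarith
  have hexp := hexp' R hR
  push_cast at hexp
  have : (0 : ℝ) ≤ (1 / 4) ^ m := by positivity
  have h4 := mul_le_mul_of_nonneg_left (hgeom.trans (mul_le_mul_of_nonneg_right hmono (by norm_num)))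
    (show (0 : ℝ) ≤ 2 * (R : ℝ) + 1 by positivity)
  linarith

/-- The edges deciding a block. -/
def dom (X Y S : ℤ) (m R : ℕ) : Finset (Sym2 V) := outer X Y S m R ∪ inner X Y S m R

/-- The block is good. -/
def Good (X Y S : ℤ) (m R : ℕ) (s1 s2 : ℝ) : Set (Sym2 V → ℝ) :=
  Low X Y S m R s1 ∩ (Bad X Y S m R s2)ᶜ

lemma low_meas (X Y S : ℤ) (m R : ℕ) (s1 : ℝ) :
    MeasurableSet[mS (outer X Y S m R)] (Low X Y S m R s1) := by
  have : Low X Y S m R s1 = ⋂ e ∈ outer X Y S m R, (fun t : Sym2 V → ℝ => t e) ⁻¹' Set.Iio s1 := by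
    ext t; simp [Low]
  rw [this]
  exact @MeasurableSet.biInter _ _ (mS (outer X Y S m R)) _ _ (Finset.countable_toSet _)
    fun e he => meas_eval he measurableSet_Iio

lemma good_meas (X Y S : ℤ) (m R : ℕ) (s1 s2 : ℝ) :
    MeasurableSet[mS (dom X Y S m R)] (Good X Y S m R s1 s2) :=
  (mS_mono Finset.subset_union_left _ (low_meas X Y S m R s1)).inter
    (mS_mono Finset.subset_union_right _ (bad_meas X Y S m R s2)).compl

lemma env_good_compl (X Y S : ℤ) {m R : ℕ} (s1 s2 lam : ℝ) (hlam : 0 < lam)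
    (hI : ∫⁻ x, ENNReal.ofReal (Real.exp (lam * (s2 - x))) ∂G ≤ 1 / 16)
    (hS : |S| ≤ m) (hR : 1 ≤ R) (hm : 4 * R ≤ m) :
    env G (Good X Y S m R s1 s2)ᶜ ≤
      1 - G (Set.Iio s1) ^ (2 * m + 4 * R + 4) * (1 / 2) := by
  rw [prob_compl_eq_one_sub (mS_le _ _ (good_meas X Y S m R s1 s2))]
  refine tsub_le_tsub_left ?_ _
  unfold Good
  rw [env_inter G (outer_disjoint X Y S (by omega) hS R) (low_meas X Y S m R s1)
    (bad_meas X Y S m R s2).compl]
  refine mul_le_mul' ?_ ?_
  · unfold Low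
    rw [env_low]
    exact pow_le_pow_right_of_le_one' prob_le_one (outer_card X Y S m R)
  · rw [prob_compl_eq_one_sub (mS_le _ _ (bad_meas X Y S m R s2))]
    refine le_trans (le_of_eq ?_) (tsub_le_tsub_left (env_bad G X Y S s2 lam hlam hI hR hm) _)
    rw [one_div, ENNReal.one_sub_inv_two]

end Vale.Agent.P158
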