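import Vale.Agent.P158.Main

/-!
# P158: consequences for geodesic rays
-/

namespace Vale.Agent.P158

open Filter

lemma adj_max {x y : V} (h : Adj x y) : max |y.1| |y.2| ≤ max |x.1| |x.2| + 1 := by
  unfold Adj at h
  have h1 := abs_sub_abs_le_abs_sub y.1 x.1
  have h2 := abs_sub_abs_le_abs_sub y.2 x.2
  rw [abs_sub_comm y.1] at h1
  rw [abs_sub_comm y.2] at h2
  have := abs_nonneg (x.1 - y.1)
  have := abs_nonneg (x.2 - y.2)
  apply max_le <;> linarith [le_max_left |x.1| |x.2|, le_max_right |x.1| |x.2|]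

lemma ray_leaves {c : ℝ} {t : Sym2 V → ℝ} (hc : 0 < c) (ht : ∀ᶠ n : ℕ in atTop, t ∈ Dev c n)
    {v : ℕ → V} (hv : Function.Injective v) (hgeo : ∀ L, IsGeo t v L)
    {a b d : ℝ} (hab : a ^ 2 + b ^ 2 = 1) (B : ℤ) :
    ∃ i, B ≤ max |(v i).1| |(v i).2| ∧
      c * Real.log (max |(v i).1| |(v i).2| : ℤ) < |a * (v i).1 + b * (v i).2 + d| := by
  set f : ℕ → ℤ := fun i => max |(v i).1| |(v i).2| with hf
  set g : ℕ → ℝ := fun i => |a * (v i).1 + b * (v i).2 + d| with hg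
  have hfin : ∀ r : ℤ, {i | f i ≤ r}.Finite := by
    intro r
    refine ((((Set.finite_Icc (-r) r).prod (Set.finite_Icc (-r) r))).preimage hv.injOn).subset
      fun i hi => ?_
    have h : |(v i).1| ≤ r ∧ |(v i).2| ≤ r := max_le_iff.1 hi
    exact ⟨abs_le.1 h.1, abs_le.1 h.2⟩
  obtain ⟨M, hM⟩ := ((hfin B).image g).bddAbove
  have hlog : Tendsto (fun n : ℕ => c * Real.log n) atTop atTop :=
    (Real.tendsto_log_atTop.comp tendsto_natCast_atTop_atTop).const_mul_atTop hc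
  obtain ⟨n, hn, hnM, hn0⟩ := (ht.and ((hlog.eventually_ge_atTop M).and
    (eventually_ge_atTop (2 * (f 0).toNat + 1)))).exists
  have hf0 : 2 * f 0 + 1 ≤ (n : ℤ) := by omega
  have hex : ∃ j, (n : ℤ) < f j := by
    by_contra h
    push Not at h
    exact Set.infinite_univ ((hfin n).subset fun i _ => h i)
  classical
  have hjlt := Nat.find_spec hex
  obtain ⟨L, hL⟩ : ∃ L, Nat.find hex = L + 1 := by
    rcases Nat.eq_zero_or_eq_succ_pred (Nat.find hex) with h | h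
    · rw [h] at hjlt
      have : 0 ≤ f 0 := le_max_of_le_left (abs_nonneg _)
      omega
    · exact ⟨_, h⟩
  have hbox : ∀ k ≤ L, f k ≤ n := fun k hk => not_lt.1 (Nat.find_min hex (by omega))
  rw [hL] at hjlt
  have hfL : (n : ℤ) ≤ f L := by
    have : f (L + 1) ≤ f L + 1 := adj_max ((hgeo (L + 1)).1 L (by omega))
    omega
  have hlong : (n : ℤ) ≤ 2 * max |(v L).1 - (v 0).1| |(v L).2 - (v 0).2| := by
    have h1 := abs_sub_abs_le_abs_sub (v L).1 (v 0).1
    have h2 := abs_sub_abs_le_abs_sub (v L).2 (v 0).2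
    simp only [hf] at hfL hf0
    omega
  obtain ⟨k, hk, hgt⟩ := hn v L (hgeo L) hv.injOn
    (fun k hk => max_le_iff.1 (hbox k hk)) hlong a b d hab
  refine ⟨k, ?_, ?_⟩
  · by_contra h
    have : g k ≤ M := hM ⟨k, (not_le.1 h).le, rfl⟩
    simp only [hg] at this
    linarith
  · refine lt_of_le_of_lt (mul_le_mul_of_nonneg_left ?_ hc.le) hgt
    rcases (le_max_of_le_left (abs_nonneg _) : (0 : ℤ) ≤ f k).lt_or_eq with h | h
    · refine Real.log_le_log (by exact_mod_cast h) ?_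
      exact_mod_cast hbox k hk
    · rw [← h]
      simpa using Real.log_natCast_nonneg n

lemma bigeo_leaves {c : ℝ} {t : Sym2 V → ℝ} (hc : 0 < c) (ht : ∀ᶠ n : ℕ in atTop, t ∈ Dev c n)
    {v : ℤ → V} (hv : Function.Injective v)
    (hgeo : ∀ (i : ℤ) (L : ℕ), IsGeo t (fun k => v (i + k)) L)
    {a b d : ℝ} (hab : a ^ 2 + b ^ 2 = 1) (w : ℝ) :
    ∃ i, w < |a * (v i).1 + b * (v i).2 + d| := by
  obtain ⟨i, hi, h⟩ := ray_leaves hc ht (v := fun k : ℕ => v (0 + k))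
    (fun x y h => by simpa using hv h) (fun L => hgeo 0 L) (d := d) hab ⌈Real.exp (w / c)⌉
  refine ⟨0 + (i : ℤ), lt_of_le_of_lt ?_ h⟩
  have h1 : Real.exp (w / c) ≤ ((max |(v (0 + i)).1| |(v (0 + i)).2| : ℤ) : ℝ) :=
    (Int.le_ceil _).trans (by exact_mod_cast hi)
  have h2 := Real.log_le_log (Real.exp_pos _) h1
  rw [Real.log_exp, div_le_iff₀ hc] at h2
  linarith

end Vale.Agent.P158
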